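import Mathlib
import Vale.Agent.P076.X.Defs

/-!
# P076, block X: basic facts on `ex`, `W`, profiles
-/

open MeasureTheory Complex Set Filter Topology

namespace Vale.Agent.P076.H972

open Vale.Agent.P076.X

/-! ### the character -/

theorem norm_ex (x : ℝ) : ‖ex x‖ = 1 := by
  unfold ex; exact Complex.norm_exp_ofReal_mul_I _

theorem ex_add (x y : ℝ) : ex (x + y) = ex x * ex y := by
  unfold ex; rw [← Complex.exp_add]; congr 1; push_cast; ring

theorem ex_zero : ex 0 = 1 := by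
  unfold ex; simp

theorem conj_ex (x : ℝ) : (starRingEnd ℂ) (ex x) = ex (-x) := by
  unfold ex
  rw [← Complex.exp_conj]
  congr 1
  rw [map_mul, Complex.conj_I, Complex.conj_ofReal]
  push_cast; ring

theorem continuous_ex : Continuous ex := by
  unfold ex; fun_prop

theorem ex_re (x : ℝ) : (ex x).re = Real.cos (2 * Real.pi * x) := by
  unfold ex; rw [Complex.exp_ofReal_mul_I_re]

theorem ex_add_ex_neg (x : ℝ) : ex x + ex (-x) = ((2 * Real.cos (2 * Real.pi * x) : ℝ) : ℂ) := by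
  rw [← conj_ex, Complex.add_conj, ex_re]

/-! ### the weight -/

theorem W_nonneg {r : ℝ} (hr : 0 < r) (x : ℝ) : 0 ≤ W r x := by
  unfold W
  have : 0 < Real.pi * r := mul_pos Real.pi_pos hr
  positivity

theorem W_pos {r : ℝ} (hr : 0 < r) (x : ℝ) : 0 < W r x := by
  unfold W
  have : 0 < Real.pi * r := mul_pos Real.pi_pos hr
  positivity

theorem W_neg (r x : ℝ) : W r (-x) = W r x := by
  unfold W; simp

theorem continuous_W (r : ℝ) : Continuous (W r) := by
  unfold W
  refine continuous_const.mul ?_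
  refine Continuous.inv₀ (by fun_prop) ?_
  intro x
  positivity

theorem integrable_W {r : ℝ} (hr : 0 < r) : Integrable (W r) := by
  have h0 : Integrable (fun x : ℝ => (1 + (x / r) ^ 2)⁻¹) :=
    integrable_inv_one_add_sq.comp_div hr.ne'
  have h1 := h0.const_mul (2 / (Real.pi * r))
  refine h1.mono' (continuous_W r).aestronglyMeasurable (Eventually.of_forall fun x => ?_)
  rw [Real.norm_of_nonneg (W_nonneg hr x)]
  unfold W
  have hp : 0 < Real.pi * r := mul_pos Real.pi_pos hr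
  refine mul_le_mul_of_nonneg_left ?_ (by positivity)
  rw [div_pow]
  refine inv_anti₀ (by positivity) ?_
  have : (0:ℝ) ≤ x ^ 2 / r ^ 2 := by positivity
  nlinarith

/-- the Fourier transform of the weight -/
theorem int_W_ex {r : ℝ} (hr : 0 < r) (a : ℝ) : ∫ u, (W r u : ℂ) * ex (-(u * a)) = (Wh r a : ℂ) := by
  have hI : ∀ b : ℝ, Integrable (fun u : ℝ => (W r u : ℂ) * ex (u * b)) := by
    intro b
    refine (integrable_W hr).ofReal.mul_bdd (c := 1) ?_ ?_
    · exact (continuous_ex.comp (by fun_prop)).aestronglyMeasurable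
    · exact Eventually.of_forall fun u => (norm_ex _).le
  have h1 : ∫ u, (W r u : ℂ) * ex (-(u * a)) = ∫ u, (W r u : ℂ) * ex (u * a) := by
    rw [← integral_neg_eq_self]
    refine integral_congr_ae (Eventually.of_forall fun u => ?_)
    simp only [W_neg, neg_mul, neg_neg]
  have h2 : (∫ u, (W r u : ℂ) * ex (-(u * a))) + ∫ u, (W r u : ℂ) * ex (u * a)
      = 2 * (Wh r a : ℂ) := by
    have hI' : Integrable (fun u : ℝ => (W r u : ℂ) * ex (-(u * a))) := by
      have := hI (-a)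
      simpa only [mul_neg] using this
    rw [← integral_add hI' (hI a)]
    unfold Wh
    rw [← integral_complex_ofReal, ← integral_const_mul]
    refine integral_congr_ae (Eventually.of_forall fun u => ?_)
    show (W r u : ℂ) * ex (-(u * a)) + (W r u : ℂ) * ex (u * a) = _
    rw [← mul_add, add_comm (ex _), ex_add_ex_neg]
    push_cast
    rw [show 2 * (Real.pi : ℂ) * ((u : ℂ) * a) = 2 * Real.pi * a * u by ring]
    ring
  rw [← h1] at h2
  have h3 : (2:ℂ) * (∫ u, (W r u : ℂ) * ex (-(u * a))) = 2 * (Wh r a : ℂ) := by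
    rw [two_mul]; exact h2
  exact mul_left_cancel₀ two_ne_zero h3

theorem int_W_sub_ex {r : ℝ} (hr : 0 < r) (x a : ℝ) :
    ∫ y, (W r (x - y) : ℂ) * ex (y * a) = ex (x * a) * (Wh r a : ℂ) := by
  have h := integral_sub_left_eq_self (fun u : ℝ => (W r u : ℂ) * ex ((x - u) * a)) volume x
  have h1 : (∫ y, (W r (x - y) : ℂ) * ex (y * a)) = ∫ y, (W r (x - y) : ℂ) * ex ((x - (x - y)) * a) := by
    refine integral_congr_ae (Eventually.of_forall fun y => ?_)
    show _ = (W r (x - y) : ℂ) * ex ((x - (x - y)) * a)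
    rw [sub_sub_cancel]
  rw [h1, h, ← int_W_ex hr a, ← integral_const_mul]
  refine integral_congr_ae (Eventually.of_forall fun u => ?_)
  show (W r u : ℂ) * ex ((x - u) * a) = ex (x * a) * ((W r u : ℂ) * ex (-(u * a)))
  rw [sub_mul, sub_eq_add_neg, ex_add]
  ring

theorem abs_Wh_le {r : ℝ} (hr : 0 < r) (a : ℝ) : |Wh r a| ≤ ∫ u, W r u := by
  unfold Wh
  rw [← Real.norm_eq_abs]
  refine (norm_integral_le_integral_norm _).trans ?_
  refine integral_mono_of_nonneg (Eventually.of_forall fun u => norm_nonneg _) (integrable_W hr)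
    (Eventually.of_forall fun u => ?_)
  show ‖W r u * Real.cos (2 * Real.pi * a * u)‖ ≤ W r u
  rw [norm_mul, Real.norm_of_nonneg (W_nonneg hr u), Real.norm_eq_abs]
  exact mul_le_of_le_one_right (W_nonneg hr u) (Real.abs_cos_le_one _)

theorem continuous_Wh {r : ℝ} (hr : 0 < r) : Continuous (Wh r) := by
  unfold Wh
  refine continuous_of_dominated (bound := fun u => W r u) ?_ ?_ (integrable_W hr) ?_
  · intro a
    exact ((continuous_W r).mul (by fun_prop)).aestronglyMeasurable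
  · intro a
    refine Eventually.of_forall fun u => ?_
    rw [norm_mul, Real.norm_of_nonneg (W_nonneg hr u), Real.norm_eq_abs]
    exact mul_le_of_le_one_right (W_nonneg hr u) (Real.abs_cos_le_one _)
  · refine Eventually.of_forall fun u => ?_
    fun_prop

/-! ### the Gaussian -/

/-- `|φ^s|² : z ↦ √2 s⁻¹ exp(-2π z²/s²)` -/
noncomputable def rho (s z : ℝ) : ℝ := Real.sqrt 2 / s * Real.exp (-(2 * Real.pi / s ^ 2) * z ^ 2)

/-- profile of the window on the Fourier side -/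
noncomputable def win (s ζ : ℝ) : ℝ :=
  (2:ℝ) ^ (1/4 : ℝ) * Real.sqrt s * Real.exp (-Real.pi * s ^ 2 * ζ ^ 2)

theorem win_nonneg (s ζ : ℝ) : 0 ≤ win s ζ := by unfold win; positivity

theorem continuous_win (s : ℝ) : Continuous (win s) := by unfold win; fun_prop

theorem win_neg (s ζ : ℝ) : win s (-ζ) = win s ζ := by unfold win; simp

theorem win_le {s : ℝ} (ζ : ℝ) : win s ζ ≤ (2:ℝ) ^ (1/4 : ℝ) * Real.sqrt s := by
  unfold win
  refine mul_le_of_le_one_right (by positivity) ?_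
  rw [Real.exp_le_one_iff]
  have := Real.pi_pos
  have h2 : 0 ≤ Real.pi * s ^ 2 * ζ ^ 2 := by positivity
  linarith

theorem int_gauss {b : ℝ} : ∫ x : ℝ, Real.exp (-b * x ^ 2) = Real.sqrt (Real.pi / b) :=
  integral_gaussian b

theorem integrable_win {s : ℝ} (hs : 0 < s) : Integrable (win s) := by
  unfold win
  have h := integrable_exp_neg_mul_sq (b := Real.pi * s ^ 2) (by positivity)
  refine (h.const_mul ((2:ℝ) ^ (1/4 : ℝ) * Real.sqrt s)).congr (Eventually.of_forall fun x => ?_)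
  show (2:ℝ) ^ (1/4 : ℝ) * Real.sqrt s * Real.exp (-(Real.pi * s ^ 2) * x ^ 2)
    = (2:ℝ) ^ (1/4 : ℝ) * Real.sqrt s * Real.exp (-Real.pi * s ^ 2 * x ^ 2)
  rw [neg_mul Real.pi (s ^ 2)]

/-- product of two windows integrated over the centre -/
theorem int_win_win {s : ℝ} (hs : 0 < s) (ξ ξ' : ℝ) :
    ∫ η, win s (ξ - η) * win s (ξ' - η) = Real.exp (-(Real.pi * s ^ 2 * (ξ - ξ') ^ 2 / 2)) := by
  have hA : ((2:ℝ) ^ (1/4 : ℝ) * Real.sqrt s) * ((2:ℝ) ^ (1/4 : ℝ) * Real.sqrt s)
      = Real.sqrt 2 * s := by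
    have h1 : (2:ℝ) ^ (1/4 : ℝ) * (2:ℝ) ^ (1/4 : ℝ) = Real.sqrt 2 := by
      rw [← Real.rpow_add (by norm_num), Real.sqrt_eq_rpow]; norm_num
    have h2 : Real.sqrt s * Real.sqrt s = s := Real.mul_self_sqrt hs.le
    calc _ = ((2:ℝ) ^ (1/4 : ℝ) * (2:ℝ) ^ (1/4 : ℝ)) * (Real.sqrt s * Real.sqrt s) := by ring
      _ = _ := by rw [h1, h2]
  have h1 : ∀ η, win s (ξ - η) * win s (ξ' - η)
      = (Real.sqrt 2 * s * Real.exp (-(Real.pi * s ^ 2 * (ξ - ξ') ^ 2 / 2))) *
        Real.exp (-(2 * Real.pi * s ^ 2) * ((ξ + ξ') / 2 - η) ^ 2) := by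
    intro η
    unfold win
    rw [← hA, mul_assoc (((2:ℝ) ^ (1/4 : ℝ) * Real.sqrt s) * ((2:ℝ) ^ (1/4 : ℝ) * Real.sqrt s)),
      ← Real.exp_add]
    calc _ = (((2:ℝ) ^ (1/4 : ℝ) * Real.sqrt s) * ((2:ℝ) ^ (1/4 : ℝ) * Real.sqrt s)) *
          (Real.exp (-Real.pi * s ^ 2 * (ξ - η) ^ 2) * Real.exp (-Real.pi * s ^ 2 * (ξ' - η) ^ 2)) := by
          ring
      _ = _ := by
          rw [← Real.exp_add]; congr 2; ring
  simp_rw [h1]
  rw [integral_const_mul]
  rw [integral_sub_left_eq_self (fun u : ℝ => Real.exp (-(2 * Real.pi * s ^ 2) * u ^ 2)) volume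
    ((ξ + ξ') / 2), int_gauss]
  have h2 : Real.sqrt 2 * s * Real.sqrt (Real.pi / (2 * Real.pi * s ^ 2)) = 1 := by
    have h3 : Real.pi / (2 * Real.pi * s ^ 2) = (Real.sqrt 2 * s)⁻¹ ^ 2 := by
      rw [inv_pow, mul_pow, Real.sq_sqrt (by norm_num)]
      have := Real.pi_pos
      field_simp
    rw [h3, Real.sqrt_sq (by positivity)]
    have : (0:ℝ) < Real.sqrt 2 * s := by positivity
    field_simp
  calc _ = Real.exp (-(Real.pi * s ^ 2 * (ξ - ξ') ^ 2 / 2)) *
      (Real.sqrt 2 * s * Real.sqrt (Real.pi / (2 * Real.pi * s ^ 2))) := by ring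
    _ = _ := by rw [h2, mul_one]

end Vale.Agent.P076.H972
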