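import Vale.Agent.P076.H972.Basic

/-!
# P076, block X: the local energy as a double integral over frequencies
-/

open MeasureTheory Complex Set Filter Topology

namespace Vale.Agent.P076.H972

open Vale.Agent.P076.X

/-- profile moved to time `t` -/
noncomputable def Gt (g : ℝ → ℂ) (t ξ : ℝ) : ℂ := g ξ * ex (-(t * ξ ^ 2))

theorem integrable_Gt {g : ℝ → ℂ} (hg : Integrable g) (t : ℝ) : Integrable (Gt g t) := by
  unfold Gt
  refine hg.mul_bdd (c := 1) ?_ (Eventually.of_forall fun ξ => (norm_ex _).le)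
  exact (continuous_ex.comp (by fun_prop)).aestronglyMeasurable

theorem sol_eq (g : ℝ → ℂ) (x t : ℝ) : sol g x t = ∫ ξ, Gt g t ξ * ex (x * ξ) := by
  unfold sol Gt
  refine integral_congr_ae (Eventually.of_forall fun ξ => ?_)
  show g ξ * ex (x * ξ - t * ξ ^ 2) = g ξ * ex (-(t * ξ ^ 2)) * ex (x * ξ)
  rw [sub_eq_add_neg, ex_add]
  ring

/-- windowed coefficient, without the phase -/
noncomputable def cG (G : ℝ → ℂ) (s y η : ℝ) : ℂ := ∫ ξ, G ξ * (win s (ξ - η) : ℂ) * ex (y * ξ)

theorem cf_eq (s y η t : ℝ) (g : ℝ → ℂ) : cf s y η t g = ex (-(y * η)) * cG (Gt g t) s y η := by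
  unfold cf cG Gt
  rw [← integral_const_mul]
  refine integral_congr_ae (Eventually.of_forall fun ξ => ?_)
  show g ξ * (starRingEnd ℂ) (pk s y η t ξ) =
    ex (-(y * η)) * (g ξ * ex (-(t * ξ ^ 2)) * (win s (ξ - η) : ℂ) * ex (y * ξ))
  have h : (starRingEnd ℂ) (pk s y η t ξ) = (win s (ξ - η) : ℂ) * ex (-(t * ξ ^ 2 - y * (ξ - η))) := by
    unfold pk win
    rw [map_mul, Complex.conj_ofReal, conj_ex]
  rw [h, show -(t * ξ ^ 2 - y * (ξ - η)) = -(t * ξ ^ 2) + (y * ξ + -(y * η)) by ring, ex_add, ex_add]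
  ring

theorem norm_cf_eq (s y η t : ℝ) (g : ℝ → ℂ) : ‖cf s y η t g‖ = ‖cG (Gt g t) s y η‖ := by
  rw [cf_eq, norm_mul, norm_ex, one_mul]

/-- the double frequency integrand -/
noncomputable def dG (G : ℝ → ℂ) (q : ℝ × ℝ) : ℂ := G q.1 * (starRingEnd ℂ) (G q.2)

theorem integrable_conj {G : ℝ → ℂ} (hG : Integrable G) :
    Integrable (fun ξ => (starRingEnd ℂ) (G ξ)) :=
  hG.mono (Complex.continuous_conj.comp_aestronglyMeasurable hG.aestronglyMeasurable)
    (Eventually.of_forall fun _ => (RCLike.norm_conj _).le)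

theorem integrable_dG {G : ℝ → ℂ} (hG : Integrable G) :
    Integrable (dG G) (volume.prod volume) := by
  unfold dG
  exact hG.mul_prod (integrable_conj hG)

theorem integrable_ex_mul {w : ℝ → ℝ} (hw : Integrable w) (a : ℝ) :
    Integrable (fun y : ℝ => (w y : ℂ) * ex (y * a)) := by
  refine hw.ofReal.mul_bdd (c := 1) ?_ (Eventually.of_forall fun ξ => (norm_ex _).le)
  exact (continuous_ex.comp (by fun_prop)).aestronglyMeasurable

theorem integrable_mul_ex {G : ℝ → ℂ} (hG : Integrable G) (a : ℝ) :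
    Integrable (fun ξ : ℝ => G ξ * ex (a * ξ)) := by
  refine hG.mul_bdd (c := 1) ?_ (Eventually.of_forall fun ξ => (norm_ex _).le)
  exact (continuous_ex.comp (by fun_prop)).aestronglyMeasurable

theorem integrable_win_win {s : ℝ} (hs : 0 < s) (ξ ξ' : ℝ) :
    Integrable (fun η => win s (ξ - η) * win s (ξ' - η)) := by
  have h0 : Integrable (fun η => win s (ξ - η)) := (integrable_win hs).comp_sub_left ξ
  refine h0.mul_bdd (c := (2:ℝ) ^ (1/4 : ℝ) * Real.sqrt s) ?_ ?_
  · exact ((continuous_win s).comp (by fun_prop)).aestronglyMeasurable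
  · refine Eventually.of_forall fun η => ?_
    rw [Real.norm_of_nonneg (win_nonneg _ _)]
    exact win_le _

theorem conj_mul_self_ofReal (z : ℂ) : z * (starRingEnd ℂ) z = ((‖z‖ ^ 2 : ℝ) : ℂ) := by
  rw [Complex.mul_conj, Complex.normSq_eq_norm_sq]

/-- the weighted energy of the windowed coefficients -/
theorem ener {G : ℝ → ℂ} (hG : Integrable G) {w : ℝ → ℝ} (hw : Integrable w) {s : ℝ} (hs : 0 < s) :
    Integrable (fun p : ℝ × ℝ => w p.1 * ‖cG G s p.1 p.2‖ ^ 2) (volume.prod volume) ∧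
    ((∫ p : ℝ × ℝ, w p.1 * ‖cG G s p.1 p.2‖ ^ 2 ∂(volume.prod volume) : ℝ) : ℂ)
      = ∫ q : ℝ × ℝ, dG G q * ((Real.exp (-(Real.pi * s ^ 2 * (q.1 - q.2) ^ 2 / 2)) : ℂ) *
          ∫ y, (w y : ℂ) * ex (y * (q.1 - q.2))) ∂(volume.prod volume) := by
  set F : (ℝ × ℝ) → (ℝ × ℝ) → ℂ := fun p q =>
    dG G q * (((w p.1 : ℂ) * ex (p.1 * (q.1 - q.2))) *
      ((win s (q.1 - p.2) * win s (q.2 - p.2) : ℝ) : ℂ)) with hF
  have hmeas : AEStronglyMeasurable (Function.uncurry F)
      ((volume.prod volume : Measure (ℝ × ℝ)).prod (volume.prod volume)) := by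
    have h1 : AEStronglyMeasurable (fun z : (ℝ × ℝ) × (ℝ × ℝ) => dG G z.2)
        ((volume.prod volume : Measure (ℝ × ℝ)).prod (volume.prod volume)) :=
      (integrable_dG hG).aestronglyMeasurable.comp_snd
    have h2 : AEStronglyMeasurable (fun z : (ℝ × ℝ) × (ℝ × ℝ) => (w z.1.1 : ℂ))
        ((volume.prod volume : Measure (ℝ × ℝ)).prod (volume.prod volume)) := by
      have h3 : AEStronglyMeasurable (fun p : ℝ × ℝ => (w p.1 : ℂ)) (volume.prod volume) :=
        hw.ofReal.aestronglyMeasurable.comp_fst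
      exact h3.comp_fst
    refine h1.mul ((h2.mul ?_).mul ?_)
    · exact (continuous_ex.comp (by fun_prop)).aestronglyMeasurable
    · refine Continuous.aestronglyMeasurable ?_
      refine Complex.continuous_ofReal.comp ?_
      exact ((continuous_win s).comp (by fun_prop)).mul ((continuous_win s).comp (by fun_prop))
  have hp : ∀ q : ℝ × ℝ, Integrable (fun p : ℝ × ℝ => F p q) (volume.prod volume) := by
    intro q
    have h := (integrable_ex_mul hw (q.1 - q.2)).mul_prod
      (integrable_win_win hs q.1 q.2).ofReal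
    exact h.const_mul (dG G q)
  have hnorm : ∀ q : ℝ × ℝ, ∫ p : ℝ × ℝ, ‖F p q‖ ∂(volume.prod volume)
      = ‖dG G q‖ * ((∫ y, |w y|) * Real.exp (-(Real.pi * s ^ 2 * (q.1 - q.2) ^ 2 / 2))) := by
    intro q
    have h1 : ∀ p : ℝ × ℝ, ‖F p q‖ =
        ‖dG G q‖ * (|w p.1| * (win s (q.1 - p.2) * win s (q.2 - p.2))) := by
      intro p
      simp only [hF]
      rw [norm_mul, norm_mul, norm_mul, norm_ex, mul_one, Complex.norm_real, Complex.norm_real,
        Real.norm_eq_abs, Real.norm_of_nonneg (mul_nonneg (win_nonneg _ _) (win_nonneg _ _))]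
    simp_rw [h1]
    rw [integral_const_mul, integral_prod_mul (fun y => |w y|)
      (fun η => win s (q.1 - η) * win s (q.2 - η)), int_win_win hs]
  have hint : Integrable (Function.uncurry F)
      ((volume.prod volume : Measure (ℝ × ℝ)).prod (volume.prod volume)) := by
    rw [integrable_prod_iff' hmeas]
    refine ⟨Eventually.of_forall fun q => hp q, ?_⟩
    have h1 : (fun q : ℝ × ℝ => ∫ p : ℝ × ℝ, ‖Function.uncurry F (p, q)‖ ∂(volume.prod volume))
        = fun q => ‖dG G q‖ *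
          ((∫ y, |w y|) * Real.exp (-(Real.pi * s ^ 2 * (q.1 - q.2) ^ 2 / 2))) := by
      funext q
      exact hnorm q
    rw [h1]
    refine (integrable_dG hG).norm.mul_bdd (c := ∫ y, |w y|) ?_ ?_
    · refine Continuous.aestronglyMeasurable ?_
      fun_prop
    · refine Eventually.of_forall fun q => ?_
      have h0 : 0 ≤ ∫ y, |w y| := integral_nonneg fun y => abs_nonneg _
      rw [Real.norm_of_nonneg (by positivity)]
      refine mul_le_of_le_one_right h0 ?_
      rw [Real.exp_le_one_iff]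
      have := Real.pi_pos
      have h2 : 0 ≤ Real.pi * s ^ 2 * (q.1 - q.2) ^ 2 / 2 := by positivity
      linarith
  have hleft : ∀ p : ℝ × ℝ, ∫ q : ℝ × ℝ, F p q ∂(volume.prod volume)
      = ((w p.1 * ‖cG G s p.1 p.2‖ ^ 2 : ℝ) : ℂ) := by
    intro p
    have h1 : ∀ q : ℝ × ℝ, F p q = (w p.1 : ℂ) *
        ((fun ξ => G ξ * (win s (ξ - p.2) : ℂ) * ex (p.1 * ξ)) q.1 *
          (fun ξ => (starRingEnd ℂ) (G ξ * (win s (ξ - p.2) : ℂ) * ex (p.1 * ξ))) q.2) := by
      intro q
      simp only [hF, dG, map_mul, Complex.conj_ofReal, conj_ex]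
      rw [mul_sub, sub_eq_add_neg, ex_add]
      push_cast
      ring
    rw [integral_congr_ae (Eventually.of_forall h1)]
    rw [integral_const_mul,
      integral_prod_mul (fun ξ => G ξ * (win s (ξ - p.2) : ℂ) * ex (p.1 * ξ))
        (fun ξ => (starRingEnd ℂ) (G ξ * (win s (ξ - p.2) : ℂ) * ex (p.1 * ξ))), integral_conj]
    have h2 : ∫ ξ, G ξ * (win s (ξ - p.2) : ℂ) * ex (p.1 * ξ) = cG G s p.1 p.2 := rfl
    rw [h2, conj_mul_self_ofReal]
    push_cast
    rfl
  have hright : ∀ q : ℝ × ℝ, ∫ p : ℝ × ℝ, F p q ∂(volume.prod volume)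
      = dG G q * ((Real.exp (-(Real.pi * s ^ 2 * (q.1 - q.2) ^ 2 / 2)) : ℂ) *
          ∫ y, (w y : ℂ) * ex (y * (q.1 - q.2))) := by
    intro q
    simp only [hF]
    rw [integral_const_mul, integral_prod_mul (fun y : ℝ => (w y : ℂ) * ex (y * (q.1 - q.2)))
      (fun η : ℝ => ((win s (q.1 - η) * win s (q.2 - η) : ℝ) : ℂ)), integral_complex_ofReal,
      int_win_win hs]
    ring
  constructor
  · have h1 := hint.integral_prod_left
    have h2 : (fun p : ℝ × ℝ => ∫ q : ℝ × ℝ, Function.uncurry F (p, q) ∂(volume.prod volume))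
        = fun p => ((w p.1 * ‖cG G s p.1 p.2‖ ^ 2 : ℝ) : ℂ) := by
      funext p
      exact hleft p
    rw [h2] at h1
    exact h1.re
  · have h3 := integral_integral_swap hint
    simp_rw [hleft, hright] at h3
    rw [← h3, integral_complex_ofReal]

/-- the weighted energy of the solution itself -/
theorem ener2 {G : ℝ → ℂ} (hG : Integrable G) {w : ℝ → ℝ} (hw : Integrable w) :
    Integrable (fun z : ℝ => w z * ‖∫ ξ, G ξ * ex (z * ξ)‖ ^ 2) ∧
    ((∫ z : ℝ, w z * ‖∫ ξ, G ξ * ex (z * ξ)‖ ^ 2 : ℝ) : ℂ)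
      = ∫ q : ℝ × ℝ, dG G q * (∫ y, (w y : ℂ) * ex (y * (q.1 - q.2))) ∂(volume.prod volume) := by
  set F : ℝ → (ℝ × ℝ) → ℂ := fun z q => dG G q * ((w z : ℂ) * ex (z * (q.1 - q.2))) with hF
  have hmeas : AEStronglyMeasurable (Function.uncurry F)
      ((volume : Measure ℝ).prod (volume.prod volume)) := by
    have h1 : AEStronglyMeasurable (fun z : ℝ × (ℝ × ℝ) => dG G z.2)
        ((volume : Measure ℝ).prod (volume.prod volume)) :=
      (integrable_dG hG).aestronglyMeasurable.comp_snd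
    have h2 : AEStronglyMeasurable (fun z : ℝ × (ℝ × ℝ) => (w z.1 : ℂ))
        ((volume : Measure ℝ).prod (volume.prod volume)) :=
      hw.ofReal.aestronglyMeasurable.comp_fst
    refine h1.mul (h2.mul ?_)
    exact (continuous_ex.comp (by fun_prop)).aestronglyMeasurable
  have hint : Integrable (Function.uncurry F) ((volume : Measure ℝ).prod (volume.prod volume)) := by
    rw [integrable_prod_iff' hmeas]
    refine ⟨Eventually.of_forall fun q =>
      (integrable_ex_mul hw (q.1 - q.2)).const_mul (dG G q), ?_⟩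
    have h1 : (fun q : ℝ × ℝ => ∫ z : ℝ, ‖Function.uncurry F (z, q)‖)
        = fun q => ‖dG G q‖ * (∫ y, |w y|) := by
      funext q
      rw [← integral_const_mul]
      refine integral_congr_ae (Eventually.of_forall fun z => ?_)
      show ‖dG G q * ((w z : ℂ) * ex (z * (q.1 - q.2)))‖ = ‖dG G q‖ * |w z|
      rw [norm_mul, norm_mul, norm_ex, mul_one, Complex.norm_real, Real.norm_eq_abs]
    rw [h1]
    exact (integrable_dG hG).norm.mul_const _
  have hleft : ∀ z : ℝ, ∫ q : ℝ × ℝ, F z q ∂(volume.prod volume)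
      = ((w z * ‖∫ ξ, G ξ * ex (z * ξ)‖ ^ 2 : ℝ) : ℂ) := by
    intro z
    have h1 : ∀ q : ℝ × ℝ, F z q = (w z : ℂ) *
        ((fun ξ => G ξ * ex (z * ξ)) q.1 * (fun ξ => (starRingEnd ℂ) (G ξ * ex (z * ξ))) q.2) := by
      intro q
      simp only [hF, dG, map_mul, conj_ex]
      rw [mul_sub, sub_eq_add_neg, ex_add]
      ring
    rw [integral_congr_ae (Eventually.of_forall h1)]
    rw [integral_const_mul, integral_prod_mul (fun ξ => G ξ * ex (z * ξ))
      (fun ξ => (starRingEnd ℂ) (G ξ * ex (z * ξ))), integral_conj, conj_mul_self_ofReal]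
    push_cast
    rfl
  constructor
  · have h1 := hint.integral_prod_left
    have h2 : (fun z : ℝ => ∫ q : ℝ × ℝ, Function.uncurry F (z, q) ∂(volume.prod volume))
        = fun z => ((w z * ‖∫ ξ, G ξ * ex (z * ξ)‖ ^ 2 : ℝ) : ℂ) := by
      funext z
      exact hleft z
    rw [h2] at h1
    exact h1.re
  · have h3 := integral_integral_swap hint
    simp_rw [hleft] at h3
    rw [integral_complex_ofReal] at h3
    rw [h3]
    refine integral_congr_ae (Eventually.of_forall fun q => ?_)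
    exact integral_const_mul _ _

end Vale.Agent.P076.H972
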