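import Vale.Agent.P076.X.Spec
import Vale.Agent.P076.H972.Ener

/-!
# P076, block X, X10: local energy through the Fourier transform of `|v|²` (`StEnF`)
-/

open MeasureTheory Complex Set Filter Topology

namespace Vale.Agent.P076.H972

open Vale.Agent.P076.X

theorem integrable_shear {G : ℝ → ℂ} (hG : Integrable G) :
    Integrable (fun z : ℝ × ℝ => dG G (z.1 + z.2, z.2)) (volume.prod volume) :=
  (measurePreserving_add_prod (volume : Measure ℝ) (volume : Measure ℝ)).integrable_comp_of_integrable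
    (integrable_dG hG)

/-- the autocorrelation of a profile -/
noncomputable def aG (G : ℝ → ℂ) (a : ℝ) : ℂ := ∫ ξ, dG G (a + ξ, ξ)

theorem integrable_aG {G : ℝ → ℂ} (hG : Integrable G) : Integrable (aG G) :=
  (integrable_shear hG).integral_prod_left

theorem uh_eq (g : ℝ → ℂ) (a t : ℝ) : uh g g a t = aG (Gt g t) a := by
  unfold uh aG dG Gt
  refine integral_congr_ae (Eventually.of_forall fun ξ => ?_)
  show g (ξ + a) * (starRingEnd ℂ) (g ξ) * ex (-(t * ((ξ + a) ^ 2 - ξ ^ 2))) =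
    g (a + ξ) * ex (-(t * (a + ξ) ^ 2)) * (starRingEnd ℂ) (g ξ * ex (-(t * ξ ^ 2)))
  rw [map_mul, conj_ex, neg_neg, add_comm a ξ,
    show -(t * ((ξ + a) ^ 2 - ξ ^ 2)) = -(t * (ξ + a) ^ 2) + t * ξ ^ 2 by ring, ex_add]
  ring

/-- change of variables `a = ξ - ξ'` -/
theorem int_dG_mul {G : ℝ → ℂ} (hG : Integrable G) {K : ℝ → ℂ} (hK : Continuous K) {c : ℝ}
    (hc : ∀ a, ‖K a‖ ≤ c) :
    ∫ q : ℝ × ℝ, dG G q * K (q.1 - q.2) ∂(volume.prod volume) = ∫ a, K a * aG G a := by
  have hH : Integrable (fun q : ℝ × ℝ => dG G q * K (q.1 - q.2)) (volume.prod volume) := by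
    refine (integrable_dG hG).mul_bdd (c := c) ?_ (Eventually.of_forall fun q => hc _)
    exact (hK.comp (by fun_prop)).aestronglyMeasurable
  have hS : Integrable (Function.uncurry fun ξ a : ℝ => K a * dG G (a + ξ, ξ))
      ((volume : Measure ℝ).prod volume) := by
    have h1 := (integrable_shear hG).bdd_mul (f := fun z : ℝ × ℝ => K z.1) (c := c)
      (hK.comp continuous_fst).aestronglyMeasurable (Eventually.of_forall fun q => hc _)
    exact h1.swap
  rw [integral_prod_symm _ hH]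
  have h2 : ∀ ξ : ℝ, ∫ x, dG G (x, ξ) * K ((x, ξ).1 - (x, ξ).2) = ∫ a, K a * dG G (a + ξ, ξ) := by
    intro ξ
    rw [← integral_add_right_eq_self _ ξ]
    refine integral_congr_ae (Eventually.of_forall fun a => ?_)
    show dG G (a + ξ, ξ) * K (a + ξ - ξ) = K a * dG G (a + ξ, ξ)
    rw [add_sub_cancel_right, mul_comm]
  simp_rw [h2]
  rw [integral_integral_swap hS]
  refine integral_congr_ae (Eventually.of_forall fun a => ?_)
  show ∫ ξ, K a * dG G (a + ξ, ξ) = K a * aG G a
  rw [integral_const_mul]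
  rfl

theorem continuous_kh {B s : ℝ} (hB : 0 < B) (hs : 0 < s) : Continuous (kh B s) := by
  unfold kh
  exact (continuous_Wh (mul_pos hB hs)).mul (by fun_prop)

theorem abs_kh_le {B s : ℝ} (hB : 0 < B) (hs : 0 < s) (a : ℝ) : |kh B s a| ≤ ∫ u, W (B * s) u := by
  unfold kh
  rw [abs_mul, abs_of_nonneg (Real.exp_pos _).le]
  have h1 := abs_Wh_le (mul_pos hB hs) a
  have h2 : Real.exp (-(Real.pi * s ^ 2 * a ^ 2 / 2)) ≤ 1 := by
    rw [Real.exp_le_one_iff]
    have := Real.pi_pos
    have h2 : 0 ≤ Real.pi * s ^ 2 * a ^ 2 / 2 := by positivity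
    linarith
  exact (mul_le_of_le_one_right (abs_nonneg _) h2).trans h1

theorem En_eq {B s : ℝ} (hB : 0 < B) (hs : 0 < s) {g : ℝ → ℂ} (hg : Integrable g) (x t : ℝ) :
    (En B s x t g : ℂ) = ∫ q : ℝ × ℝ, dG (Gt g t) q * ((kh B s (q.1 - q.2) : ℂ) *
      ex (x * (q.1 - q.2))) ∂(volume.prod volume) := by
  have hBs := mul_pos hB hs
  have hw : Integrable (fun y => W (B * s) (x - y)) := (integrable_W hBs).comp_sub_left x
  have h := (ener (integrable_Gt hg t) hw hs).2
  unfold En
  simp_rw [norm_cf_eq]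
  rw [Measure.volume_eq_prod, h]
  refine integral_congr_ae (Eventually.of_forall fun q => ?_)
  show dG (Gt g t) q * ((Real.exp (-(Real.pi * s ^ 2 * (q.1 - q.2) ^ 2 / 2)) : ℂ) *
          ∫ y, (W (B * s) (x - y) : ℂ) * ex (y * (q.1 - q.2))) = _
  rw [int_W_sub_ex hBs]
  unfold kh
  push_cast
  ring

/-- X10 -/
theorem stEnF : StEnF := by
  intro B s hB hs g hg x t
  have hG := integrable_Gt hg.1 t
  have hkc : Continuous (fun a => (kh B s a : ℂ)) :=
    Complex.continuous_ofReal.comp (continuous_kh hB hs)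
  have hkb : ∀ a, ‖(kh B s a : ℂ)‖ ≤ ∫ u, W (B * s) u := by
    intro a
    rw [Complex.norm_real]
    exact abs_kh_le hB hs a
  constructor
  · simp_rw [uh_eq]
    exact (integrable_aG hG).bdd_mul hkc.aestronglyMeasurable (Eventually.of_forall hkb)
  · rw [En_eq hB hs hg.1]
    have hK : Continuous (fun a : ℝ => (kh B s a : ℂ) * ex (x * a)) :=
      hkc.mul (continuous_ex.comp (by fun_prop))
    rw [int_dG_mul hG hK (c := ∫ u, W (B * s) u)]
    · refine integral_congr_ae (Eventually.of_forall fun a => ?_)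
      show (kh B s a : ℂ) * ex (x * a) * aG (Gt g t) a = (kh B s a : ℂ) * uh g g a t * ex (x * a)
      rw [uh_eq]
      ring
    · intro a
      rw [norm_mul, norm_ex, mul_one]
      exact hkb a

end Vale.Agent.P076.H972
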