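import Vale.Agent.P076.X.Spec
import Vale.Agent.P076.H972.EnF

/-!
# P076, block X, X13: the local energy is bounded by the plain weighted mass (`StEnW`)
-/

open MeasureTheory Complex Set Filter Topology

namespace Vale.Agent.P076.H972

open Vale.Agent.P076.X

theorem rho_nonneg {s : ℝ} (hs : 0 < s) (z : ℝ) : 0 ≤ rho s z := by
  unfold rho; positivity

theorem continuous_rho (s : ℝ) : Continuous (rho s) := by
  unfold rho; fun_prop

theorem rho_neg (s z : ℝ) : rho s (-z) = rho s z := by unfold rho; simp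

theorem integrable_rho {s : ℝ} (hs : 0 < s) : Integrable (rho s) := by
  unfold rho
  exact (integrable_exp_neg_mul_sq (b := 2 * Real.pi / s ^ 2) (by positivity)).const_mul _

/-- the Fourier transform of `rho` -/
theorem int_rho_ex {s : ℝ} (hs : 0 < s) (a : ℝ) :
    ∫ u, (rho s u : ℂ) * ex (u * a) = (Real.exp (-(Real.pi * s ^ 2 * a ^ 2 / 2)) : ℂ) := by
  have hb : (0:ℝ) < 2 * Real.pi / s ^ 2 := by positivity
  have h := fourierIntegral_gaussian (b := ((2 * Real.pi / s ^ 2 : ℝ) : ℂ))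
    (by rw [Complex.ofReal_re]; exact hb) ((2 * Real.pi * a : ℝ) : ℂ)
  have h1 : ∀ u : ℝ, (rho s u : ℂ) * ex (u * a) = ((Real.sqrt 2 / s : ℝ) : ℂ) *
      (cexp (I * ((2 * Real.pi * a : ℝ) : ℂ) * u) *
        cexp (-((2 * Real.pi / s ^ 2 : ℝ) : ℂ) * (u : ℂ) ^ 2)) := by
    intro u
    unfold rho ex
    rw [Complex.ofReal_mul, Complex.ofReal_exp]
    have e1 : ((2 * Real.pi * (u * a) : ℝ) : ℂ) * I = I * ((2 * Real.pi * a : ℝ) : ℂ) * u := by
      push_cast; ring
    have e2 : ((-(2 * Real.pi / s ^ 2) * u ^ 2 : ℝ) : ℂ)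
        = -((2 * Real.pi / s ^ 2 : ℝ) : ℂ) * (u : ℂ) ^ 2 := by
      push_cast; ring
    rw [e1, e2]; ring
  simp_rw [h1]
  rw [integral_const_mul, h]
  have h2 : (((Real.pi : ℂ) / ((2 * Real.pi / s ^ 2 : ℝ) : ℂ)) ^ (1 / 2 : ℂ))
      = ((Real.sqrt (Real.pi / (2 * Real.pi / s ^ 2)) : ℝ) : ℂ) := by
    rw [Real.sqrt_eq_rpow, Complex.ofReal_cpow (by positivity)]
    push_cast
    rfl
  have h3 : Real.sqrt 2 / s * Real.sqrt (Real.pi / (2 * Real.pi / s ^ 2)) = 1 := by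
    have h4 : Real.pi / (2 * Real.pi / s ^ 2) = (s / Real.sqrt 2) ^ 2 := by
      rw [div_pow, Real.sq_sqrt (by norm_num)]
      have := Real.pi_pos
      field_simp
    rw [h4, Real.sqrt_sq (by positivity)]
    have : (0:ℝ) < Real.sqrt 2 := by positivity
    field_simp
  rw [h2, ← mul_assoc, ← Complex.ofReal_mul, h3, Complex.ofReal_one, one_mul, Complex.ofReal_exp]
  congr 1
  have := Real.pi_pos
  push_cast
  field_simp
  ring

/-- Peetre type inequality for the weight -/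
theorem W_sub_le {r : ℝ} (hr : 0 < r) (u v : ℝ) :
    W r (u - v) ≤ 4 * (1 + v ^ 2 / r ^ 2) ^ 2 * W r u := by
  unfold W
  have hp : 0 < Real.pi * r := mul_pos Real.pi_pos hr
  have hr2 : 0 < r ^ 2 := by positivity
  have key : 1 + u ^ 2 / r ^ 2 ≤ 2 * (1 + v ^ 2 / r ^ 2) * (1 + (u - v) ^ 2 / r ^ 2) := by
    have h1 : u ^ 2 / r ^ 2 ≤ 2 * (v ^ 2 / r ^ 2) + 2 * ((u - v) ^ 2 / r ^ 2) := by
      rw [← mul_div_assoc, ← mul_div_assoc, ← add_div]
      refine div_le_div_of_nonneg_right ?_ hr2.le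
      nlinarith [sq_nonneg (u - 2 * v), sq_nonneg (u - v), sq_nonneg v]
    have h2 : 0 ≤ v ^ 2 / r ^ 2 := by positivity
    have h3 : 0 ≤ (u - v) ^ 2 / r ^ 2 := by positivity
    nlinarith [mul_nonneg h2 h3]
  have key2 : (1 + u ^ 2 / r ^ 2) ^ 2 ≤
      4 * (1 + v ^ 2 / r ^ 2) ^ 2 * (1 + (u - v) ^ 2 / r ^ 2) ^ 2 := by
    have := pow_le_pow_left₀ (by positivity) key 2
    calc _ ≤ _ := this
      _ = _ := by ring
  have hX : 0 < (1 + u ^ 2 / r ^ 2) ^ 2 := by positivity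
  have hY : 0 < (1 + (u - v) ^ 2 / r ^ 2) ^ 2 := by positivity
  have key3 : ((1 + (u - v) ^ 2 / r ^ 2) ^ 2)⁻¹ ≤
      4 * (1 + v ^ 2 / r ^ 2) ^ 2 * ((1 + u ^ 2 / r ^ 2) ^ 2)⁻¹ := by
    rw [inv_le_iff_one_le_mul₀ hY, mul_assoc, mul_assoc, mul_comm (((1 + u ^ 2 / r ^ 2) ^ 2)⁻¹),
      ← mul_assoc, ← mul_assoc, ← div_eq_mul_inv, le_div_iff₀ hX, one_mul]
    exact key2
  calc _ ≤ 2 / (Real.pi * r) * (4 * (1 + v ^ 2 / r ^ 2) ^ 2 * ((1 + u ^ 2 / r ^ 2) ^ 2)⁻¹) :=
        mul_le_mul_of_nonneg_left key3 (by positivity)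
    _ = _ := by ring

/-- comparison of two scales -/
theorem W_scale_le {B s : ℝ} (hB : 1 ≤ B) (hs : 0 < s) (u : ℝ) : W (B * s) u ≤ B ^ 3 * W s u := by
  unfold W
  have hB0 : 0 < B := by linarith
  have hps : 0 < Real.pi * s := mul_pos Real.pi_pos hs
  have key : 1 + u ^ 2 / s ^ 2 ≤ B ^ 2 * (1 + u ^ 2 / (B * s) ^ 2) := by
    have h1 : B ^ 2 * (u ^ 2 / (B * s) ^ 2) = u ^ 2 / s ^ 2 := by
      field_simp
    rw [mul_add, h1, mul_one]
    have : 1 ≤ B ^ 2 := by nlinarith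
    linarith
  have key2 : (1 + u ^ 2 / s ^ 2) ^ 2 ≤ B ^ 4 * (1 + u ^ 2 / (B * s) ^ 2) ^ 2 := by
    have := pow_le_pow_left₀ (by positivity) key 2
    calc _ ≤ _ := this
      _ = _ := by ring
  have hX : 0 < (1 + u ^ 2 / s ^ 2) ^ 2 := by positivity
  have hY : 0 < (1 + u ^ 2 / (B * s) ^ 2) ^ 2 := by positivity
  have key3 : ((1 + u ^ 2 / (B * s) ^ 2) ^ 2)⁻¹ ≤ B ^ 4 * ((1 + u ^ 2 / s ^ 2) ^ 2)⁻¹ := by
    rw [inv_le_iff_one_le_mul₀ hY, mul_assoc, mul_comm (((1 + u ^ 2 / s ^ 2) ^ 2)⁻¹),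
      ← mul_assoc, ← div_eq_mul_inv, le_div_iff₀ hX, one_mul]
    exact key2
  calc _ ≤ 2 / (Real.pi * (B * s)) * (B ^ 4 * ((1 + u ^ 2 / s ^ 2) ^ 2)⁻¹) :=
        mul_le_mul_of_nonneg_left key3 (by positivity)
    _ = _ := by field_simp

/-- `W_{Bs}(x - y) ρ_s(y - z) ≤ 4√2 B³ W_s(x - z) s⁻¹ exp(-π (y-z)²/s²)` -/
theorem W_mul_rho_le {B s : ℝ} (hB : 1 ≤ B) (hs : 0 < s) (u v : ℝ) :
    W (B * s) (u - v) * rho s v ≤
      4 * Real.sqrt 2 * B ^ 3 * W s u * (s⁻¹ * Real.exp (-(Real.pi / s ^ 2) * v ^ 2)) := by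
  have hB0 : 0 < B := by linarith
  have hBs : 0 < B * s := mul_pos hB0 hs
  have h1 := W_sub_le hBs u v
  have h2 : W (B * s) u ≤ B ^ 3 * W s u := W_scale_le hB hs u
  have h3 : (1 + v ^ 2 / (B * s) ^ 2) ^ 2 * Real.exp (-(2 * Real.pi / s ^ 2) * v ^ 2) ≤
      Real.exp (-(Real.pi / s ^ 2) * v ^ 2) := by
    have h4 : (1 + v ^ 2 / (B * s) ^ 2) ≤ Real.exp (v ^ 2 / s ^ 2) := by
      have h5 : v ^ 2 / (B * s) ^ 2 ≤ v ^ 2 / s ^ 2 := by
        refine div_le_div_of_nonneg_left (by positivity) (by positivity) ?_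
        refine pow_le_pow_left₀ hs.le ?_ 2
        nlinarith
      have h6 := Real.add_one_le_exp (v ^ 2 / s ^ 2)
      linarith
    have h5 : (1 + v ^ 2 / (B * s) ^ 2) ^ 2 ≤ Real.exp (2 * (v ^ 2 / s ^ 2)) := by
      have := pow_le_pow_left₀ (by positivity) h4 2
      refine this.trans (le_of_eq ?_)
      rw [← Real.exp_nat_mul]
      norm_num
    calc _ ≤ Real.exp (2 * (v ^ 2 / s ^ 2)) * Real.exp (-(2 * Real.pi / s ^ 2) * v ^ 2) :=
          mul_le_mul_of_nonneg_right h5 (Real.exp_pos _).le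
      _ = Real.exp (2 * (v ^ 2 / s ^ 2) + -(2 * Real.pi / s ^ 2) * v ^ 2) := by
          rw [Real.exp_add]
      _ ≤ _ := by
          refine Real.exp_le_exp.mpr ?_
          have hpi : 2 ≤ Real.pi := by linarith [Real.pi_gt_three]
          have hq : 0 ≤ v ^ 2 / s ^ 2 := by positivity
          have e1 : -(2 * Real.pi / s ^ 2) * v ^ 2 = -(2 * Real.pi) * (v ^ 2 / s ^ 2) := by ring
          have e2 : -(Real.pi / s ^ 2) * v ^ 2 = -Real.pi * (v ^ 2 / s ^ 2) := by ring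
          rw [e1, e2]
          nlinarith
  have hW0 := W_nonneg hs u
  have hr0 := rho_nonneg hs v
  calc W (B * s) (u - v) * rho s v
      ≤ (4 * (1 + v ^ 2 / (B * s) ^ 2) ^ 2 * W (B * s) u) * rho s v :=
        mul_le_mul_of_nonneg_right h1 hr0
    _ ≤ (4 * (1 + v ^ 2 / (B * s) ^ 2) ^ 2 * (B ^ 3 * W s u)) * rho s v := by
        refine mul_le_mul_of_nonneg_right ?_ hr0
        exact mul_le_mul_of_nonneg_left h2 (by positivity)
    _ = (4 * Real.sqrt 2 * B ^ 3 * W s u * s⁻¹) *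
        ((1 + v ^ 2 / (B * s) ^ 2) ^ 2 * Real.exp (-(2 * Real.pi / s ^ 2) * v ^ 2)) := by
        unfold rho; ring
    _ ≤ (4 * Real.sqrt 2 * B ^ 3 * W s u * s⁻¹) * Real.exp (-(Real.pi / s ^ 2) * v ^ 2) :=
        mul_le_mul_of_nonneg_left h3 (by positivity)
    _ = _ := by ring

/-- the mollified weight -/
noncomputable def Wr (r s x z : ℝ) : ℝ := ∫ y, W r (x - y) * rho s (y - z)

theorem integrable_WrF {r s : ℝ} (hr : 0 < r) (hs : 0 < s) (x : ℝ) :
    Integrable (Function.uncurry fun y z : ℝ => W r (x - y) * rho s (y - z))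
      ((volume : Measure ℝ).prod volume) := by
  have hm : AEStronglyMeasurable (Function.uncurry fun y z : ℝ => W r (x - y) * rho s (y - z))
      ((volume : Measure ℝ).prod volume) := by
    refine Continuous.aestronglyMeasurable ?_
    exact ((continuous_W r).comp (by fun_prop)).mul ((continuous_rho s).comp (by fun_prop))
  rw [integrable_prod_iff hm]
  constructor
  · refine Eventually.of_forall fun y => ?_
    exact ((integrable_rho hs).comp_sub_left y).const_mul (W r (x - y))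
  · have h1 : (fun y => ∫ z, ‖Function.uncurry (fun y z : ℝ => W r (x - y) * rho s (y - z)) (y, z)‖)
        = fun y => W r (x - y) * ∫ z, rho s z := by
      funext y
      rw [← integral_sub_left_eq_self (fun z => rho s z) volume y, ← integral_const_mul]
      refine integral_congr_ae (Eventually.of_forall fun z => ?_)
      show ‖W r (x - y) * rho s (y - z)‖ = W r (x - y) * rho s (y - z)
      exact Real.norm_of_nonneg (mul_nonneg (W_nonneg hr _) (rho_nonneg hs _))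
    rw [h1]
    exact ((integrable_W hr).comp_sub_left x).mul_const _

theorem integrable_Wr {r s : ℝ} (hr : 0 < r) (hs : 0 < s) (x : ℝ) : Integrable (Wr r s x) :=
  (integrable_WrF hr hs x).integral_prod_right

theorem Wr_nonneg {r s : ℝ} (hr : 0 < r) (hs : 0 < s) (x z : ℝ) : 0 ≤ Wr r s x z :=
  integral_nonneg fun _ => mul_nonneg (W_nonneg hr _) (rho_nonneg hs _)

/-- the Fourier transform of the mollified weight -/
theorem int_Wr_ex {r s : ℝ} (hr : 0 < r) (hs : 0 < s) (x a : ℝ) :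
    ∫ z, (Wr r s x z : ℂ) * ex (z * a) = (Real.exp (-(Real.pi * s ^ 2 * a ^ 2 / 2)) : ℂ) *
      ∫ y, (W r (x - y) : ℂ) * ex (y * a) := by
  have hint : Integrable (Function.uncurry fun y z : ℝ =>
      ((W r (x - y) * rho s (y - z) : ℝ) : ℂ) * ex (z * a)) ((volume : Measure ℝ).prod volume) := by
    refine (integrable_WrF hr hs x).ofReal.mul_bdd (c := 1) ?_
      (Eventually.of_forall fun q => (norm_ex _).le)
    exact (continuous_ex.comp (by fun_prop)).aestronglyMeasurable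
  have hsw := integral_integral_swap hint
  have hL : ∀ y : ℝ, ∫ z, ((W r (x - y) * rho s (y - z) : ℝ) : ℂ) * ex (z * a)
      = (Real.exp (-(Real.pi * s ^ 2 * a ^ 2 / 2)) : ℂ) * ((W r (x - y) : ℂ) * ex (y * a)) := by
    intro y
    have h1 : ∀ z : ℝ, ((W r (x - y) * rho s (y - z) : ℝ) : ℂ) * ex (z * a)
        = ((W r (x - y) : ℂ) * ex (y * a)) * ((fun u : ℝ => (rho s u : ℂ) * ex (u * (-a))) (y - z)) := by
      intro z
      show _ = ((W r (x - y) : ℂ) * ex (y * a)) * ((rho s (y - z) : ℂ) * ex ((y - z) * (-a)))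
      have h2 : ex (z * a) = ex (y * a) * ex ((y - z) * (-a)) := by
        rw [← ex_add]; congr 1; ring
      rw [h2]
      push_cast
      ring
    rw [integral_congr_ae (Eventually.of_forall h1), integral_const_mul,
      integral_sub_left_eq_self (fun u : ℝ => (rho s u : ℂ) * ex (u * (-a))) volume y,
      int_rho_ex hs, neg_sq]
    ring
  have hR : ∀ z : ℝ, ∫ y, ((W r (x - y) * rho s (y - z) : ℝ) : ℂ) * ex (z * a)
      = (Wr r s x z : ℂ) * ex (z * a) := by
    intro z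
    rw [integral_mul_const, integral_complex_ofReal]
    rfl
  simp_rw [hL, hR] at hsw
  rw [← hsw, integral_const_mul]

/-- the local energy is the integral of `|v|²` against the mollified weight -/
theorem En_eq_Wr {B s : ℝ} (hB : 0 < B) (hs : 0 < s) {g : ℝ → ℂ} (hg : Integrable g) (x t : ℝ) :
    En B s x t g = ∫ z, Wr (B * s) s x z * ‖sol g z t‖ ^ 2 := by
  have hBs := mul_pos hB hs
  have h1 := En_eq hB hs hg x t
  have h2 := (ener2 (integrable_Gt hg t) (integrable_Wr hBs hs x)).2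
  have h3 : (En B s x t g : ℂ) = ((∫ z, Wr (B * s) s x z * ‖sol g z t‖ ^ 2 : ℝ) : ℂ) := by
    simp_rw [sol_eq]
    rw [h1, h2]
    refine integral_congr_ae (Eventually.of_forall fun q => ?_)
    show dG (Gt g t) q * ((kh B s (q.1 - q.2) : ℂ) * ex (x * (q.1 - q.2))) =
      dG (Gt g t) q * (∫ y, (Wr (B * s) s x y : ℂ) * ex (y * (q.1 - q.2)))
    rw [int_Wr_ex hBs hs, int_W_sub_ex hBs]
    unfold kh
    push_cast
    ring
  exact_mod_cast h3

/-- the mollified weight is dominated by the weight -/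
theorem Wr_le {B s : ℝ} (hB : 1 ≤ B) (hs : 0 < s) (x z : ℝ) :
    Wr (B * s) s x z ≤ 4 * Real.sqrt 2 * B ^ 3 * W s (x - z) := by
  have hB0 : 0 < B := by linarith
  have hBs : 0 < B * s := mul_pos hB0 hs
  have hb : 0 < Real.pi / s ^ 2 := by positivity
  have hgi : Integrable (fun v : ℝ => s⁻¹ * Real.exp (-(Real.pi / s ^ 2) * v ^ 2)) :=
    (integrable_exp_neg_mul_sq hb).const_mul _
  have hg1 : ∫ v : ℝ, s⁻¹ * Real.exp (-(Real.pi / s ^ 2) * v ^ 2) = 1 := by
    rw [integral_const_mul, integral_gaussian]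
    have : Real.pi / (Real.pi / s ^ 2) = s ^ 2 := by
      have := Real.pi_pos
      field_simp
    rw [this, Real.sqrt_sq hs.le]
    field_simp
  have h1 : Wr (B * s) s x z = ∫ v, W (B * s) (x - z - v) * rho s v := by
    unfold Wr
    rw [← integral_add_right_eq_self _ z]
    refine integral_congr_ae (Eventually.of_forall fun v => ?_)
    show W (B * s) (x - (v + z)) * rho s (v + z - z) = W (B * s) (x - z - v) * rho s v
    rw [add_sub_cancel_right]
    congr 2
    ring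
  rw [h1]
  calc ∫ v, W (B * s) (x - z - v) * rho s v
      ≤ ∫ v, 4 * Real.sqrt 2 * B ^ 3 * W s (x - z) *
          (s⁻¹ * Real.exp (-(Real.pi / s ^ 2) * v ^ 2)) := by
        refine integral_mono_of_nonneg (Eventually.of_forall fun v => ?_) (hgi.const_mul _)
          (Eventually.of_forall fun v => W_mul_rho_le hB hs (x - z) v)
        exact mul_nonneg (W_nonneg hBs _) (rho_nonneg hs _)
    _ = _ := by rw [integral_const_mul, hg1, mul_one]

theorem integrable_W_sol {s : ℝ} (hs : 0 < s) {g : ℝ → ℂ} (hg : Integrable g) (x t : ℝ) :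
    Integrable (fun y => W s (x - y) * ‖sol g y t‖ ^ 2) := by
  have h := (ener2 (integrable_Gt hg t) ((integrable_W hs).comp_sub_left x)).1
  simp_rw [sol_eq]
  exact h

/-- X13 -/
theorem stEnW : StEnW := by
  intro B hB
  have hB0 : 0 < B := by linarith
  refine ⟨4 * Real.sqrt 2 * B ^ 3, by positivity, ?_⟩
  intro s hs g hg x t
  have hI := integrable_W_sol hs hg.1 x t
  refine ⟨hI, ?_⟩
  rw [En_eq_Wr hB0 hs hg.1, ← integral_const_mul]
  refine integral_mono_of_nonneg (Eventually.of_forall fun z => ?_) (hI.const_mul _)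
    (Eventually.of_forall fun z => ?_)
  · exact mul_nonneg (Wr_nonneg (mul_pos hB0 hs) hs _ _) (by positivity)
  · show Wr (B * s) s x z * ‖sol g z t‖ ^ 2 ≤
      4 * Real.sqrt 2 * B ^ 3 * (W s (x - z) * ‖sol g z t‖ ^ 2)
    have h1 := Wr_le hB hs x z
    have h2 : 0 ≤ ‖sol g z t‖ ^ 2 := by positivity
    calc _ ≤ 4 * Real.sqrt 2 * B ^ 3 * W s (x - z) * ‖sol g z t‖ ^ 2 :=
          mul_le_mul_of_nonneg_right h1 h2
      _ = _ := by ring

end Vale.Agent.P076.H972
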