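import Vale.Agent.P076.H972.StopDefs
import Vale.Agent.P076.H972.EnW

/-!
# P076, block X, STOP: the chain of the pruning process
-/

open MeasureTheory Complex Set Filter Topology

namespace Vale.Agent.P076.H972

open Vale.Agent.P076.X

variable {B b C₀ C₁ : ℝ} {m N : ℕ} {g : ℝ → ℂ}

theorem sc_pos (m l : ℕ) : 0 < sc m l := by unfold sc; positivity

theorem two_sc_succ (m l : ℕ) : 2 * sc m (l + 1) = sc m l := by
  unfold sc; rw [pow_succ]; field_simp

theorem sc_anti (m : ℕ) {j l : ℕ} (h : j ≤ l) : sc m l ≤ sc m j := by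
  unfold sc
  exact div_le_div_of_nonneg_left (by positivity) (by positivity)
    (pow_le_pow_right₀ (by norm_num) h)

theorem kk_succ (m l : ℕ) (t : ℝ) : kk m (l + 1) t / 4 = kk m l t := by
  unfold kk
  have h : t / (sc m l) ^ 2 = t / (sc m (l + 1)) ^ 2 / ((4 : ℕ) : ℝ) := by
    rw [← two_sc_succ m l, mul_pow, div_div]
    congr 1
    push_cast
    ring
  rw [h, Nat.floor_div_natCast]

theorem kk_zero {m : ℕ} {t : ℝ} (h1 : t < 4 ^ m) : kk m 0 t = 0 := by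
  unfold kk
  rw [Nat.floor_eq_zero]
  unfold sc
  rw [pow_zero, div_one, ← pow_mul, mul_comm m 2, pow_mul]
  norm_num
  rw [div_lt_one (by positivity)]
  exact h1

theorem kk_lt {m : ℕ} {t : ℝ} (h1 : t < 4 ^ m) (l : ℕ) : kk m l t < 4 ^ l := by
  induction l with
  | zero => rw [kk_zero h1]; norm_num
  | succ l ih =>
    have := kk_succ m l t
    have h2 : kk m (l + 1) t < 4 ^ l * 4 := by omega
    rwa [pow_succ]

theorem kk_le {m l : ℕ} {t : ℝ} (h0 : 0 ≤ t) : (kk m l t : ℝ) * (sc m l) ^ 2 ≤ t := by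
  have hs := sc_pos m l
  have h := Nat.floor_le (a := t / (sc m l) ^ 2) (by positivity)
  unfold kk
  rwa [le_div_iff₀ (by positivity)] at h

theorem lt_kk (m l : ℕ) (t : ℝ) : t < ((kk m l t : ℝ) + 1) * (sc m l) ^ 2 := by
  have hs := sc_pos m l
  have h := Nat.lt_floor_add_one (t / (sc m l) ^ 2)
  unfold kk
  rwa [div_lt_iff₀ (by positivity)] at h

theorem kk_ct {m l : ℕ} {t : ℝ} (h0 : 0 ≤ t) : |t - ct m l (kk m l t)| ≤ (sc m l) ^ 2 := by
  have h1 := kk_le (m := m) (l := l) h0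
  have h2 := lt_kk m l t
  have hs := sc_pos m l
  have hs2 : 0 < (sc m l) ^ 2 := by positivity
  unfold ct
  rw [abs_le]
  constructor <;> nlinarith

theorem kk_eq_of_le {m : ℕ} {t t' : ℝ} {j l : ℕ} (h : j ≤ l) (hl : kk m l t = kk m l t') :
    kk m j t = kk m j t' := by
  induction l, h using Nat.le_induction with
  | base => exact hl
  | succ l _ ih =>
    apply ih
    rw [← kk_succ m l t, ← kk_succ m l t', hl]

theorem En_nonneg {B s : ℝ} (hB : 0 < B) (hs : 0 < s) (x t : ℝ) (h : ℝ → ℂ) : 0 ≤ En B s x t h := by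
  unfold En
  exact integral_nonneg fun p => mul_nonneg (W_nonneg (mul_pos hB hs) _) (by positivity)

theorem gi_succ (Pr : Proc B b C₀ C₁ m N g) {l : ℕ} (hl : l < N) {t : ℝ} (h1 : t < 4 ^ m) :
    Pr.gi (l + 1) (kk m (l + 1) t) = Pr.go l (kk m l t) := by
  rw [Pr.step l hl _ (kk_lt h1 (l + 1)), kk_succ]

theorem gi_zero (Pr : Proc B b C₀ C₁ m N g) {t : ℝ} (h1 : t < 4 ^ m) :
    Pr.gi 0 (kk m 0 t) = g := by
  rw [kk_zero h1, Pr.top]

/-- the pruning loss is bounded below by the weighted sum of the removed packets -/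
theorem Pl_ge (Pr : Proc B b C₀ C₁ m N g) {l : ℕ} (hl : l ≤ N) (x : ℝ) {t : ℝ} (h0 : 0 ≤ t)
    (h1 : t < 4 ^ m) :
    (1/2) * ∑ i ∈ Finset.range (Pr.n l (kk m l t)), ‖Pr.c l (kk m l t) i‖ ^ 2 *
      W (B * sc m l) (x - Pr.y l (kk m l t) i -
        2 * Pr.η l (kk m l t) i * (t - ct m l (kk m l t))) ≤ Pl Pr l x t :=
  (Pr.prn l hl _ (kk_lt h1 l)).lo x t (kk_ct h0)

theorem Pl_nonneg (Pr : Proc B b C₀ C₁ m N g) (hB : 0 < B) {l : ℕ} (hl : l ≤ N) (x : ℝ) {t : ℝ}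
    (h0 : 0 ≤ t) (h1 : t < 4 ^ m) : 0 ≤ Pl Pr l x t := by
  refine le_trans ?_ (Pl_ge Pr hl x h0 h1)
  refine mul_nonneg (by norm_num) (Finset.sum_nonneg fun i _ => ?_)
  exact mul_nonneg (by positivity) (W_nonneg (mul_pos hB (sc_pos m l)) _)

/-- difference of local energies of one profile at two scales -/
theorem En_sub {B s : ℝ} (hB : 0 < B) (hs : 0 < s) {h : ℝ → ℂ} (hh : Good h) (x t : ℝ) :
    (∫ a, ((kh B s a - kh B (2 * s) a : ℝ) : ℂ) * uh h h a t * ex (x * a)).re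
      = En B s x t h - En B (2 * s) x t h := by
  obtain ⟨hi1, he1⟩ := stEnF B s hB hs h hh x t
  obtain ⟨hi2, he2⟩ := stEnF B (2 * s) hB (by positivity) h hh x t
  have hex : Continuous (fun a : ℝ => ex (x * a)) := continuous_ex.comp (by fun_prop)
  have hb : ∀ᵐ a : ℝ, ‖ex (x * a)‖ ≤ 1 := Eventually.of_forall fun a => (norm_ex _).le
  have hi1' := hi1.mul_bdd (c := 1) hex.aestronglyMeasurable hb
  have hi2' := hi2.mul_bdd (c := 1) hex.aestronglyMeasurable hb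
  have h1 : (∫ a, ((kh B s a - kh B (2 * s) a : ℝ) : ℂ) * uh h h a t * ex (x * a))
      = ((En B s x t h - En B (2 * s) x t h : ℝ) : ℂ) := by
    rw [Complex.ofReal_sub, he1, he2, ← integral_sub hi1' hi2']
    refine integral_congr_ae (Eventually.of_forall fun a => ?_)
    show _ = (kh B s a : ℂ) * uh h h a t * ex (x * a) - (kh B (2 * s) a : ℂ) * uh h h a t * ex (x * a)
    push_cast
    ring
  rw [h1, Complex.ofReal_re]

theorem Dl_succ (Pr : Proc B b C₀ C₁ m N g) (hB : 0 < B) {l : ℕ} (hl : l < N) (x : ℝ) {t : ℝ}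
    (h1 : t < 4 ^ m) :
    Dl Pr (l + 1) x t = Xi Pr (l + 1) x t - En B (sc m l) x t (Pr.go l (kk m l t)) := by
  unfold Dl Xi
  have hg : Good (Pr.gi (l + 1) (kk m (l + 1) t)) := (Pr.prn (l + 1) hl _ (kk_lt h1 (l + 1))).good
  rw [En_sub hB (sc_pos m (l + 1)) hg, two_sc_succ, gi_succ Pr hl h1]

/-- the chain identity -/
theorem Zl_eq (Pr : Proc B b C₀ C₁ m N g) (hB : 0 < B) {l : ℕ} (hl : l ≤ N) (x : ℝ) {t : ℝ}
    (h1 : t < 4 ^ m) :
    Zl Pr l x t = Xi Pr l x t + ∑ j ∈ Finset.range l, Pl Pr j x t := by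
  induction l with
  | zero => unfold Zl; simp
  | succ l ih =>
    have h2 := ih (by omega)
    have h3 : Zl Pr (l + 1) x t = Zl Pr l x t + Dl Pr (l + 1) x t := by
      unfold Zl
      rw [Finset.sum_Icc_succ_top (by omega)]
      ring
    rw [h3, h2, Dl_succ Pr hB hl x h1, Finset.sum_range_succ]
    have h4 : Pl Pr l x t = Xi Pr l x t - En B (sc m l) x t (Pr.go l (kk m l t)) := rfl
    rw [h4]
    ring

theorem Xi_le_Zl (Pr : Proc B b C₀ C₁ m N g) (hB : 0 < B) {l : ℕ} (hl : l ≤ N) (x : ℝ) {t : ℝ}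
    (h0 : 0 ≤ t) (h1 : t < 4 ^ m) : Xi Pr l x t ≤ Zl Pr l x t := by
  rw [Zl_eq Pr hB hl x h1]
  have : 0 ≤ ∑ j ∈ Finset.range l, Pl Pr j x t :=
    Finset.sum_nonneg fun j hj => Pl_nonneg Pr hB (by have := Finset.mem_range.mp hj; omega) x h0 h1
  linarith

theorem sum_Pl_le_Zl (Pr : Proc B b C₀ C₁ m N g) (hB : 0 < B) {l : ℕ} (hl : l ≤ N) (x : ℝ) {t : ℝ}
    (h1 : t < 4 ^ m) : ∑ j ∈ Finset.range l, Pl Pr j x t ≤ Zl Pr l x t := by
  rw [Zl_eq Pr hB hl x h1]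
  have : 0 ≤ Xi Pr l x t := En_nonneg hB (sc_pos m l) _ _ _
  linarith

/-! ### pointwise chain -/

theorem integrable_psi_sol {ψ : ℝ → ℝ} (hψ : Bump ψ) {h : ℝ → ℂ} (hh : Integrable h) (x t : ℝ) :
    Integrable (fun ξ => (ψ ξ : ℂ) * h ξ * ex (x * ξ - t * ξ ^ 2)) := by
  have hc : Continuous ψ := hψ.1.continuous
  obtain ⟨M, hM⟩ := hψ.2.exists_bound_of_continuous hc
  have h1 : Integrable (fun ξ => (ψ ξ : ℂ) * h ξ) := by
    refine hh.bdd_mul (c := M) (Complex.continuous_ofReal.comp hc).aestronglyMeasurable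
      (Eventually.of_forall fun ξ => ?_)
    rw [Complex.norm_real]
    exact hM ξ
  refine h1.mul_bdd (c := 1) ?_ (Eventually.of_forall fun ξ => (norm_ex _).le)
  exact (continuous_ex.comp (by fun_prop)).aestronglyMeasurable

theorem integrable_pk {s : ℝ} (hs : 0 < s) (y η t : ℝ) : Integrable (pk s y η t) := by
  have h1 : Integrable (fun ξ => win s (ξ - η)) := (integrable_win hs).comp_sub_right η
  have h2 := h1.ofReal (𝕜 := ℂ)
  exact h2.mul_bdd (c := 1) (continuous_ex.comp (by fun_prop)).aestronglyMeasurable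
    (Eventually.of_forall fun ξ => (norm_ex _).le)

/-- one step of the chain -/
theorem step_le {ψ : ℝ → ℝ} (hψ : Bump ψ) {CK : ℝ} (hCK : 0 < CK) (hB : 1 ≤ B) (hb : 0 < b)
    (hK : ∀ s : ℝ, 1 ≤ s → ∀ y η t₀ t t' x : ℝ, |t - t₀| ≤ s ^ 2 → |t' - t| ≤ 4 * s →
      ‖sol (fun ξ => ψ ξ * pk s y η t₀ ξ) x t'‖ ≤
        CK * Real.sqrt s * W (B * s) (x - y - 2 * η * (t - t₀)))
    (Pr : Proc B b C₀ C₁ m N g) {j : ℕ} (hj : j ≤ N) (hs : 1 ≤ sc m j) {x x₀ t t₁ : ℝ}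
    (h0 : 0 ≤ t₁) (h1 : t₁ < 4 ^ m) (hx : |x - x₀| ≤ 4 * sc m j) (ht : |t - t₁| ≤ 4 * sc m j) :
    ‖sol (fun ξ => ψ ξ * Pr.gi j (kk m j t₁) ξ) x t - sol (fun ξ => ψ ξ * Pr.go j (kk m j t₁) ξ) x t‖
      ≤ 2312 * CK / b * Pl Pr j x₀ t₁ := by
  have hB0 : 0 < B := by linarith
  have hs0 := sc_pos m j
  have hBs : 0 < B * sc m j := mul_pos hB0 hs0
  set k := kk m j t₁ with hk
  have P := Pr.prn j hj k (kk_lt h1 j)
  have hgo : Integrable (Pr.go j k) := P.good'.1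
  have hsum : sol (fun ξ => ψ ξ * Pr.gi j k ξ) x t - sol (fun ξ => ψ ξ * Pr.go j k ξ) x t
      = ∑ i ∈ Finset.range (Pr.n j k), Pr.c j k i *
        sol (fun ξ => ψ ξ * pk (sc m j) (Pr.y j k i) (Pr.η j k i) (ct m j k) ξ) x t := by
    have hI : ∀ i, Integrable (fun ξ => Pr.c j k i *
        ((ψ ξ : ℂ) * pk (sc m j) (Pr.y j k i) (Pr.η j k i) (ct m j k) ξ *
          ex (x * ξ - t * ξ ^ 2))) := fun i =>
      (integrable_psi_sol hψ (integrable_pk hs0 _ _ _) x t).const_mul _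
    unfold sol
    simp_rw [← integral_const_mul]
    rw [← integral_finsetSum _ fun i _ => hI i, sub_eq_iff_eq_add, ← integral_add
      (integrable_finsetSum _ fun i _ => hI i) (integrable_psi_sol hψ hgo x t)]
    refine integral_congr_ae (Eventually.of_forall fun ξ => ?_)
    show (ψ ξ : ℂ) * Pr.gi j k ξ * ex (x * ξ - t * ξ ^ 2) =
      (∑ i ∈ Finset.range (Pr.n j k), Pr.c j k i *
        ((ψ ξ : ℂ) * pk (sc m j) (Pr.y j k i) (Pr.η j k i) (ct m j k) ξ * ex (x * ξ - t * ξ ^ 2)))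
      + (ψ ξ : ℂ) * Pr.go j k ξ * ex (x * ξ - t * ξ ^ 2)
    rw [P.eq ξ, mul_add, add_mul, Finset.mul_sum, Finset.sum_mul, add_comm]
    congr 1
    refine Finset.sum_congr rfl fun i _ => ?_
    ring
  rw [hsum]
  have hPl := Pl_ge Pr hj x₀ h0 h1
  rw [← hk] at hPl
  have hterm : ∀ i ∈ Finset.range (Pr.n j k), ‖Pr.c j k i *
        sol (fun ξ => ψ ξ * pk (sc m j) (Pr.y j k i) (Pr.η j k i) (ct m j k) ξ) x t‖ ≤
      (1156 * CK / b) * (‖Pr.c j k i‖ ^ 2 *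
        W (B * sc m j) (x₀ - Pr.y j k i - 2 * Pr.η j k i * (t₁ - ct m j k))) := by
    intro i hi
    have hbig := P.big i (Finset.mem_range.mp hi)
    have hker := hK (sc m j) hs (Pr.y j k i) (Pr.η j k i) (ct m j k) t₁ t x (kk_ct h0) ht
    set u := x₀ - Pr.y j k i - 2 * Pr.η j k i * (t₁ - ct m j k) with hu
    have hW : W (B * sc m j) (x - Pr.y j k i - 2 * Pr.η j k i * (t₁ - ct m j k)) ≤
        1156 * W (B * sc m j) u := by
      have h3 := W_sub_le hBs u (x₀ - x)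
      have h4 : u - (x₀ - x) = x - Pr.y j k i - 2 * Pr.η j k i * (t₁ - ct m j k) := by
        rw [hu]; ring
      rw [h4] at h3
      refine h3.trans ?_
      have h5 : (x₀ - x) ^ 2 / (B * sc m j) ^ 2 ≤ 16 := by
        rw [div_le_iff₀ (by positivity)]
        have h6 : (x₀ - x) ^ 2 ≤ (4 * sc m j) ^ 2 := by
          rw [← sq_abs, abs_sub_comm]
          exact pow_le_pow_left₀ (abs_nonneg _) hx 2
        have h7 : (4 * sc m j) ^ 2 ≤ 16 * (B * sc m j) ^ 2 := by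
          have : sc m j ^ 2 ≤ (B * sc m j) ^ 2 := pow_le_pow_left₀ hs0.le (by nlinarith) 2
          nlinarith
        exact h6.trans h7
      have h8 : (1 + (x₀ - x) ^ 2 / (B * sc m j) ^ 2) ^ 2 ≤ 289 := by
        have h9 : 0 ≤ (x₀ - x) ^ 2 / (B * sc m j) ^ 2 := by positivity
        nlinarith
      have := W_nonneg hBs u
      nlinarith
    have hc0 : 0 < ‖Pr.c j k i‖ := lt_of_le_of_lt (by positivity) hbig
    have hWu := W_nonneg hBs u
    rw [norm_mul]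
    calc ‖Pr.c j k i‖ * ‖sol (fun ξ => ψ ξ * pk (sc m j) (Pr.y j k i) (Pr.η j k i) (ct m j k) ξ) x t‖
        ≤ ‖Pr.c j k i‖ * (CK * Real.sqrt (sc m j) * (1156 * W (B * sc m j) u)) := by
          refine mul_le_mul_of_nonneg_left (hker.trans ?_) (norm_nonneg _)
          exact mul_le_mul_of_nonneg_left hW (by positivity)
      _ = (1156 * CK / b) * (‖Pr.c j k i‖ * (b * Real.sqrt (sc m j)) * W (B * sc m j) u) := by
          field_simp
      _ ≤ (1156 * CK / b) * (‖Pr.c j k i‖ * ‖Pr.c j k i‖ * W (B * sc m j) u) := by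
          refine mul_le_mul_of_nonneg_left ?_ (by positivity)
          refine mul_le_mul_of_nonneg_right ?_ hWu
          exact mul_le_mul_of_nonneg_left hbig.le (norm_nonneg _)
      _ = _ := by rw [sq]
  refine (norm_sum_le _ _).trans ((Finset.sum_le_sum hterm).trans ?_)
  rw [← Finset.mul_sum]
  calc _ = (2312 * CK / b) * ((1/2) * ∑ i ∈ Finset.range (Pr.n j k), ‖Pr.c j k i‖ ^ 2 *
        W (B * sc m j) (x₀ - Pr.y j k i - 2 * Pr.η j k i * (t₁ - ct m j k))) := by ring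
    _ ≤ _ := mul_le_mul_of_nonneg_left hPl (by positivity)

/-- CHAIN: up to an unstopped scale the solution is that of the input -/
theorem chain (hKer : StKer) (hB : 1 ≤ B) {ψ : ℝ → ℝ} (hψ : Bump ψ) :
    ∃ C : ℝ, 0 < C ∧ ∀ {b C₀ C₁ : ℝ} {m N : ℕ} {g : ℝ → ℂ} (_ : 0 < b)
      (Pr : Proc B b C₀ C₁ m N g) {l : ℕ} (_ : l ≤ N) (_ : 1 ≤ sc m l) {x x₀ t t₁ lam : ℝ}
      (_ : 0 ≤ t) (_ : t < 4 ^ m) (_ : 0 ≤ t₁) (_ : t₁ < 4 ^ m)
      (_ : |x - x₀| ≤ 4 * sc m l) (_ : |t - t₁| ≤ 4 * sc m l) (_ : Zl Pr l x₀ t₁ ≤ lam),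
      ‖sol (fun ξ => ψ ξ * g ξ) x t - sol (fun ξ => ψ ξ * Pr.gi l (kk m l t₁) ξ) x t‖
        ≤ C / b * lam := by
  obtain ⟨CK, hCK, hK⟩ := hKer B hB ψ hψ
  refine ⟨2312 * CK, by positivity, ?_⟩
  intro b C₀ C₁ m N g hb Pr l hl hs x x₀ t t₁ lam ht0 ht1 h0 h1 hx ht hZ
  have hB0 : 0 < B := by linarith
  have key : ∀ j, j ≤ l →
      ‖sol (fun ξ => ψ ξ * g ξ) x t - sol (fun ξ => ψ ξ * Pr.gi j (kk m j t₁) ξ) x t‖
        ≤ 2312 * CK / b * ∑ i ∈ Finset.range j, Pl Pr i x₀ t₁ := by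
    intro j
    induction j with
    | zero =>
      intro _
      rw [gi_zero Pr h1]
      simp
    | succ j ih =>
      intro hj
      have h2 := ih (by omega)
      have hsj : sc m l ≤ sc m j := sc_anti m (by omega)
      have h3 := step_le hψ hCK hB hb hK Pr (j := j) (by omega) (hs.trans hsj) h0 h1
        (hx.trans (by linarith)) (ht.trans (by linarith))
      rw [gi_succ Pr (by omega) h1, Finset.sum_range_succ, mul_add]
      have h4 := norm_sub_le_norm_sub_add_norm_sub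
        (sol (fun ξ => ψ ξ * g ξ) x t) (sol (fun ξ => ψ ξ * Pr.gi j (kk m j t₁) ξ) x t)
        (sol (fun ξ => ψ ξ * Pr.go j (kk m j t₁) ξ) x t)
      linarith
  refine (key l le_rfl).trans ?_
  refine mul_le_mul_of_nonneg_left ?_ (by positivity)
  exact (sum_Pl_le_Zl Pr hB0 hl x₀ h1).trans hZ

end Vale.Agent.P076.H972
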