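import Mathlib.Analysis.Calculus.ContDiff.Basic
import Mathlib.MeasureTheory.Integral.IntegralEqImproper
import Mathlib.Analysis.SpecialFunctions.Complex.Analytic
import Mathlib.Analysis.SpecialFunctions.Gaussian.GaussianIntegral
import Mathlib.Analysis.SpecialFunctions.ExpDeriv
import Mathlib.Analysis.Calculus.Deriv.Support
import Mathlib.MeasureTheory.Measure.Haar.NormedSpace

/-!
# P076: the kernels `ψ(D) e^{iτD} φ` of Gaussian wave packets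

`Kj ψ j s η w σ = ∫ e(w ζ - σ ζ²) ψ(η + ζ/s) ζ^j exp(-π ζ²) dζ` decays faster than any power of `w`,
uniformly in `s ≥ s₀`, `η`, and `|σ| ≤ S`.  `packet_kernel`: for the wave packet
`φ(x) = 2^{1/4} s^{-1/2} exp(-π (x-y)²/s²) e(η x)` and a symbol `ψ`,
`|ψ(D) e^{iτD} φ (x)| ≤ C s^{-1/2} (1 + |x - y - 2τη|/s)^{-N}` for `|τ| ≤ S s²`.
-/

open MeasureTheory Complex Set Filter Topology
open scoped ContDiff

namespace Vale.Agent.P076.H972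

noncomputable section

/-- `e(w ζ - σ ζ²)` -/
def eq2 (w σ ζ : ℝ) : ℂ := cexp (2 * Real.pi * I * ((w * ζ - σ * ζ ^ 2 : ℝ) : ℂ))

theorem norm_eq2 (w σ ζ : ℝ) : ‖eq2 w σ ζ‖ = 1 := by
  unfold eq2
  have : (2 * Real.pi * I * ((w * ζ - σ * ζ ^ 2 : ℝ) : ℂ)) =
      ((2 * Real.pi * (w * ζ - σ * ζ ^ 2) : ℝ) : ℂ) * I := by
    push_cast; ring
  rw [this, Complex.norm_exp_ofReal_mul_I]

theorem hasDerivAt_eq2 (w σ ζ : ℝ) :
    HasDerivAt (eq2 w σ) ((2 * Real.pi * I * ((w - 2 * σ * ζ : ℝ) : ℂ)) * eq2 w σ ζ) ζ := by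
  unfold eq2
  have h1 : HasDerivAt (fun r : ℝ => w * r - σ * r ^ 2) (w - 2 * σ * ζ) ζ := by
    have h0 := ((hasDerivAt_id' ζ).const_mul w).fun_sub ((hasDerivAt_pow 2 ζ).const_mul σ)
    refine h0.congr_deriv ?_
    push_cast; ring
  have h2 := (h1.ofReal_comp.const_mul (2 * Real.pi * I)).cexp
  refine h2.congr_deriv ?_
  ring

theorem continuous_eq2 (w σ : ℝ) : Continuous (eq2 w σ) := by
  unfold eq2; fun_prop

/-- `ζ^j exp(-π ζ²)` -/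
def gj (j : ℕ) (ζ : ℝ) : ℝ := ζ ^ j * Real.exp (-Real.pi * ζ ^ 2)

theorem continuous_gj (j : ℕ) : Continuous (gj j) := by
  unfold gj; fun_prop

theorem integrable_gj (j : ℕ) : Integrable (gj j) := by
  have h := integrable_rpow_mul_exp_neg_mul_sq (b := Real.pi) Real.pi_pos (s := (j : ℝ))
    (lt_of_lt_of_le (by norm_num) (Nat.cast_nonneg j))
  refine h.congr (Eventually.of_forall fun x => ?_)
  show x ^ (j : ℝ) * _ = _
  rw [Real.rpow_natCast]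
  rfl

theorem hasDerivAt_gj (j : ℕ) (ζ : ℝ) :
    HasDerivAt (gj j) (j * gj (j - 1) ζ - 2 * Real.pi * gj (j + 1) ζ) ζ := by
  unfold gj
  have h1 : HasDerivAt (fun r : ℝ => -Real.pi * r ^ 2) (-Real.pi * (2 * ζ)) ζ := by
    have := (hasDerivAt_pow 2 ζ).const_mul (-Real.pi)
    refine this.congr_deriv ?_
    push_cast; ring
  have h2 := (hasDerivAt_pow j ζ).fun_mul h1.exp
  refine h2.congr_deriv ?_
  rw [pow_succ]
  ring

/-- The integrals. -/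
def Kj (ψ : ℝ → ℂ) (j : ℕ) (s η w σ : ℝ) : ℂ :=
  ∫ ζ : ℝ, eq2 w σ ζ * (ψ (η + ζ / s) * (gj j ζ : ℂ))

section

variable {ψ : ℝ → ℂ}

theorem integrable_Kj {B : ℝ} (hψ : Continuous ψ) (hB : ∀ x, ‖ψ x‖ ≤ B) (j : ℕ) (s η w σ : ℝ) :
    Integrable fun ζ : ℝ => eq2 w σ ζ * (ψ (η + ζ / s) * (gj j ζ : ℂ)) := by
  refine ((integrable_gj j).norm.const_mul B).mono' ?_ (Eventually.of_forall fun ζ => ?_)
  · refine ((continuous_eq2 w σ).mul ((hψ.comp (by fun_prop)).mul ?_)).aestronglyMeasurable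
    exact continuous_ofReal.comp (continuous_gj j)
  · rw [norm_mul, norm_eq2, one_mul, norm_mul, Complex.norm_real]
    exact mul_le_mul_of_nonneg_right (hB _) (norm_nonneg _)

theorem norm_Kj_le {B : ℝ} (hB : ∀ x, ‖ψ x‖ ≤ B) (j : ℕ) (s η w σ : ℝ) :
    ‖Kj ψ j s η w σ‖ ≤ B * ∫ ζ : ℝ, ‖gj j ζ‖ := by
  unfold Kj
  rw [← integral_const_mul]
  refine norm_integral_le_of_norm_le ((integrable_gj j).norm.const_mul B)
    (Eventually.of_forall fun ζ => ?_)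
  rw [norm_mul, norm_eq2, one_mul, norm_mul, Complex.norm_real]
  exact mul_le_mul_of_nonneg_right (hB _) (norm_nonneg _)

theorem int_lin {A B C D : ℝ → ℂ} (hA : Integrable A) (hB : Integrable B) (hC : Integrable C)
    (hD : Integrable D) (a b c d e : ℂ) :
    Integrable (fun ζ => (a * A ζ - b * B ζ) + (c * C ζ + d * D ζ - e * B ζ)) ∧
      ∫ ζ, ((a * A ζ - b * B ζ) + (c * C ζ + d * D ζ - e * B ζ)) =
        (a * ∫ ζ, A ζ) - (b * ∫ ζ, B ζ) +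
          ((c * ∫ ζ, C ζ) + (d * ∫ ζ, D ζ) - e * ∫ ζ, B ζ) := by
  have i1 : Integrable fun ζ => a * A ζ - b * B ζ := (hA.const_mul a).sub (hB.const_mul b)
  have i2 : Integrable fun ζ => c * C ζ + d * D ζ := (hC.const_mul c).add (hD.const_mul d)
  have i3 : Integrable fun ζ => c * C ζ + d * D ζ - e * B ζ := i2.sub (hB.const_mul e)
  refine ⟨i1.add i3, ?_⟩
  rw [integral_add i1 i3, integral_sub (hA.const_mul a) (hB.const_mul b),
    integral_sub i2 (hB.const_mul e), integral_add (hC.const_mul c) (hD.const_mul d)]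
  simp only [integral_const_mul]

/-- Integration by parts. -/
theorem Kj_step (hψ : ContDiff ℝ ∞ ψ) (hc : HasCompactSupport ψ) (j : ℕ) (s η w σ : ℝ) :
    (w : ℂ) * Kj ψ j s η w σ = 2 * σ * Kj ψ (j + 1) s η w σ +
      I / (2 * Real.pi) * ((s : ℂ)⁻¹ * Kj (deriv ψ) j s η w σ + j * Kj ψ (j - 1) s η w σ -
        2 * Real.pi * Kj ψ (j + 1) s η w σ) := by
  have hd : ContDiff ℝ ∞ (deriv ψ) := (contDiff_infty_iff_deriv.1 hψ).2
  obtain ⟨B, hB⟩ := hψ.continuous.bounded_above_of_compact_support hc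
  obtain ⟨B', hB'⟩ := hd.continuous.bounded_above_of_compact_support hc.deriv
  have i0 := integrable_Kj hψ.continuous hB j s η w σ
  have i1 := integrable_Kj hψ.continuous hB (j + 1) s η w σ
  have i2 := integrable_Kj hψ.continuous hB (j - 1) s η w σ
  have i3 := integrable_Kj hd.continuous hB' j s η w σ
  have hder : ∀ ζ : ℝ, HasDerivAt (fun ζ : ℝ => eq2 w σ ζ * (ψ (η + ζ / s) * (gj j ζ : ℂ)))
      (2 * Real.pi * I * w * (eq2 w σ ζ * (ψ (η + ζ / s) * (gj j ζ : ℂ))) -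
        4 * Real.pi * I * σ * (eq2 w σ ζ * (ψ (η + ζ / s) * (gj (j + 1) ζ : ℂ))) +
        ((s : ℂ)⁻¹ * (eq2 w σ ζ * (deriv ψ (η + ζ / s) * (gj j ζ : ℂ))) +
          j * (eq2 w σ ζ * (ψ (η + ζ / s) * (gj (j - 1) ζ : ℂ))) -
          2 * Real.pi * (eq2 w σ ζ * (ψ (η + ζ / s) * (gj (j + 1) ζ : ℂ))))) ζ := by
    intro ζ
    have h1 : HasDerivAt (fun ζ : ℝ => η + ζ / s) (1 / s) ζ :=
      ((hasDerivAt_id' ζ).div_const s).const_add η
    have h2 : HasDerivAt (fun ζ : ℝ => ψ (η + ζ / s)) ((1 / s : ℝ) • deriv ψ (η + ζ / s)) ζ :=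
      HasDerivAt.scomp ζ ((hψ.differentiable (by simp)) (η + ζ / s)).hasDerivAt h1
    have h3 := (hasDerivAt_gj j ζ).ofReal_comp
    have h4 := (hasDerivAt_eq2 w σ ζ).fun_mul (h2.fun_mul h3)
    refine h4.congr_deriv ?_
    have e1 : (gj (j + 1) ζ : ℂ) = ζ * (gj j ζ : ℂ) := by
      unfold gj
      push_cast
      ring
    rw [Complex.real_smul, e1]
    push_cast
    rw [e1]
    ring
  obtain ⟨i4, e4⟩ := int_lin i0 i1 i3 i2 (2 * Real.pi * I * w) (4 * Real.pi * I * σ) ((s : ℂ)⁻¹)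
    (j : ℂ) (2 * Real.pi)
  have h0 := integral_eq_zero_of_hasDerivAt_of_integrable hder i4 i0
  have e0 : (2 * Real.pi * I * w * Kj ψ j s η w σ - 4 * Real.pi * I * σ * Kj ψ (j + 1) s η w σ) +
      ((s : ℂ)⁻¹ * Kj (deriv ψ) j s η w σ + j * Kj ψ (j - 1) s η w σ -
        2 * Real.pi * Kj ψ (j + 1) s η w σ) = 0 := e4.symm.trans h0
  have hp : (Real.pi : ℂ) ≠ 0 := by exact_mod_cast Real.pi_ne_zero
  have hI : I * I = -1 := Complex.I_mul_I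
  field_simp
  linear_combination (-I) * e0 + (2 * Real.pi * w * Kj ψ j s η w σ - 4 * Real.pi * σ *
    Kj ψ (j + 1) s η w σ) * hI

end

/-- **Decay of the integrals**, uniformly in the parameters. -/
theorem Kj_decay (N : ℕ) : ∀ (s₀ S : ℝ), 0 < s₀ → 0 ≤ S → ∀ (ψ : ℝ → ℂ), ContDiff ℝ ∞ ψ →
    HasCompactSupport ψ → ∀ j : ℕ, ∃ C : ℝ, 0 ≤ C ∧ ∀ s : ℝ, s₀ ≤ s → ∀ η w σ : ℝ, |σ| ≤ S →
      |w| ^ N * ‖Kj ψ j s η w σ‖ ≤ C := by
  induction N with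
  | zero =>
    intro s₀ S _ _ ψ hψ hc j
    obtain ⟨B, hB⟩ := hψ.continuous.bounded_above_of_compact_support hc
    have hB0 : 0 ≤ B := (norm_nonneg _).trans (hB 0)
    refine ⟨B * ∫ ζ : ℝ, ‖gj j ζ‖, mul_nonneg hB0 (integral_nonneg fun _ => norm_nonneg _),
      fun s _ η w σ _ => ?_⟩
    rw [pow_zero, one_mul]
    exact norm_Kj_le hB j s η w σ
  | succ N ih =>
    intro s₀ S hs₀ hS ψ hψ hc j
    have hd : ContDiff ℝ ∞ (deriv ψ) := (contDiff_infty_iff_deriv.1 hψ).2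
    obtain ⟨C1, hC1, k1⟩ := ih s₀ S hs₀ hS ψ hψ hc (j + 1)
    obtain ⟨C2, hC2, k2⟩ := ih s₀ S hs₀ hS ψ hψ hc (j - 1)
    obtain ⟨C3, hC3, k3⟩ := ih s₀ S hs₀ hS (deriv ψ) hd hc.deriv j
    refine ⟨2 * S * C1 + (s₀⁻¹ * C3 + j * C2 + 2 * Real.pi * C1), by positivity,
      fun s hs η w σ hσ => ?_⟩
    have hs' : 0 < s := hs₀.trans_le hs
    have a1 := k1 s hs η w σ hσ
    have a2 := k2 s hs η w σ hσ
    have a3 := k3 s hs η w σ hσ
    have e := congrArg norm (Kj_step hψ hc j s η w σ)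
    rw [norm_mul, Complex.norm_real, Real.norm_eq_abs] at e
    have hi : ‖I / (2 * Real.pi : ℂ)‖ ≤ 1 := by
      rw [norm_div, Complex.norm_I, norm_mul, Complex.norm_ofNat, Complex.norm_real,
        Real.norm_eq_abs, abs_of_pos Real.pi_pos]
      rw [div_le_one (by positivity)]
      linarith [Real.two_le_pi]
    have e2 : |w| * ‖Kj ψ j s η w σ‖ ≤ 2 * S * ‖Kj ψ (j + 1) s η w σ‖ +
        (s₀⁻¹ * ‖Kj (deriv ψ) j s η w σ‖ + j * ‖Kj ψ (j - 1) s η w σ‖ +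
          2 * Real.pi * ‖Kj ψ (j + 1) s η w σ‖) := by
      rw [e]
      refine (norm_add_le _ _).trans (add_le_add ?_ ?_)
      · rw [norm_mul, norm_mul, Complex.norm_ofNat, Complex.norm_real, Real.norm_eq_abs]
        gcongr
      · rw [norm_mul]
        refine (mul_le_of_le_one_left (norm_nonneg _) hi).trans ?_
        refine (norm_sub_le _ _).trans (add_le_add ((norm_add_le _ _).trans (add_le_add ?_ ?_)) ?_)
        · rw [norm_mul, norm_inv, Complex.norm_real, Real.norm_eq_abs, abs_of_pos hs']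
          gcongr
        · rw [norm_mul, Complex.norm_natCast]
        · rw [norm_mul, norm_mul, Complex.norm_ofNat, Complex.norm_real, Real.norm_eq_abs,
            abs_of_pos Real.pi_pos]
    calc |w| ^ (N + 1) * ‖Kj ψ j s η w σ‖ = |w| ^ N * (|w| * ‖Kj ψ j s η w σ‖) := by ring
      _ ≤ |w| ^ N * (2 * S * ‖Kj ψ (j + 1) s η w σ‖ +
        (s₀⁻¹ * ‖Kj (deriv ψ) j s η w σ‖ + j * ‖Kj ψ (j - 1) s η w σ‖ +
          2 * Real.pi * ‖Kj ψ (j + 1) s η w σ‖)) := by gcongr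
      _ = 2 * S * (|w| ^ N * ‖Kj ψ (j + 1) s η w σ‖) +
        (s₀⁻¹ * (|w| ^ N * ‖Kj (deriv ψ) j s η w σ‖) +
          j * (|w| ^ N * ‖Kj ψ (j - 1) s η w σ‖) +
          2 * Real.pi * (|w| ^ N * ‖Kj ψ (j + 1) s η w σ‖)) := by ring
      _ ≤ _ := by
        have := inv_nonneg.2 hs₀.le
        gcongr

/-- Decay in the form `(1 + |w|)^{-N}`. -/
theorem Kj_decay' (N : ℕ) {s₀ S : ℝ} (hs₀ : 0 < s₀) (hS : 0 ≤ S) {ψ : ℝ → ℂ}
    (hψ : ContDiff ℝ ∞ ψ) (hc : HasCompactSupport ψ) (j : ℕ) : ∃ C : ℝ, 0 ≤ C ∧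
    ∀ s : ℝ, s₀ ≤ s → ∀ η w σ : ℝ, |σ| ≤ S → ‖Kj ψ j s η w σ‖ ≤ C * ((1 + |w|) ^ N)⁻¹ := by
  obtain ⟨C0, hC0, k0⟩ := Kj_decay 0 s₀ S hs₀ hS ψ hψ hc j
  obtain ⟨C1, hC1, k1⟩ := Kj_decay N s₀ S hs₀ hS ψ hψ hc j
  refine ⟨2 ^ N * (C0 + C1), by positivity, fun s hs η w σ hσ => ?_⟩
  have b0 := k0 s hs η w σ hσ
  have b1 := k1 s hs η w σ hσ
  rw [pow_zero, one_mul] at b0
  rw [← div_eq_mul_inv, le_div_iff₀ (by positivity)]
  have h2 : (0 : ℝ) < 2 ^ N := by positivity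
  rcases le_total |w| 1 with h | h
  · calc ‖Kj ψ j s η w σ‖ * (1 + |w|) ^ N ≤ C0 * (1 + 1) ^ N := by gcongr
      _ = 2 ^ N * C0 := by norm_num [mul_comm]
      _ ≤ _ := by nlinarith
  · calc ‖Kj ψ j s η w σ‖ * (1 + |w|) ^ N ≤ ‖Kj ψ j s η w σ‖ * (|w| + |w|) ^ N := by gcongr
      _ = 2 ^ N * (|w| ^ N * ‖Kj ψ j s η w σ‖) := by rw [← two_mul, mul_pow]; ring
      _ ≤ 2 ^ N * C1 := by gcongr
      _ ≤ _ := by nlinarith

/-! ### Wave packets -/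

/-- The Fourier transform of the wave packet `2^{1/4} s^{-1/2} exp(-π (x-y)²/s²) e(η x)`. -/
def pkh (s y η ξ : ℝ) : ℂ :=
  ((2 ^ (1 / 4 : ℝ) * Real.sqrt s * Real.exp (-Real.pi * s ^ 2 * (ξ - η) ^ 2) : ℝ) : ℂ) *
    cexp (2 * Real.pi * I * ((-((ξ - η) * y) : ℝ) : ℂ))

/-- `ψ(D) e^{iτD} φ (x)` is an integral `Kj`. -/
theorem packet_eq (ψ : ℝ → ℂ) {s : ℝ} (hs : 0 < s) (y η τ x : ℝ) :
    ∫ ξ : ℝ, ψ ξ * eq2 x τ ξ * pkh s y η ξ =
      ((2 ^ (1 / 4 : ℝ) * (Real.sqrt s)⁻¹ : ℝ) : ℂ) * eq2 x τ η *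
        Kj ψ 0 s η ((x - y - 2 * τ * η) / s) (τ / s ^ 2) := by
  have h1 : ∀ ζ : ℝ, ψ (η + ζ / s) * eq2 x τ (η + ζ / s) * pkh s y η (η + ζ / s) =
      ((2 ^ (1 / 4 : ℝ) * Real.sqrt s : ℝ) : ℂ) * eq2 x τ η *
        (eq2 ((x - y - 2 * τ * η) / s) (τ / s ^ 2) ζ * (ψ (η + ζ / s) * (gj 0 ζ : ℂ))) := by
    intro ζ
    unfold pkh gj eq2
    have e1 : Real.exp (-Real.pi * s ^ 2 * (η + ζ / s - η) ^ 2) = Real.exp (-Real.pi * ζ ^ 2) := by
      congr 1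
      field_simp
      ring
    rw [e1]
    have e2 : cexp (2 * Real.pi * I * ((x * (η + ζ / s) - τ * (η + ζ / s) ^ 2 : ℝ) : ℂ)) *
        cexp (2 * Real.pi * I * ((-((η + ζ / s - η) * y) : ℝ) : ℂ)) =
        cexp (2 * Real.pi * I * ((x * η - τ * η ^ 2 : ℝ) : ℂ)) *
          cexp (2 * Real.pi * I *
            (((x - y - 2 * τ * η) / s * ζ - τ / s ^ 2 * ζ ^ 2 : ℝ) : ℂ)) := by
      rw [← Complex.exp_add, ← Complex.exp_add, ← mul_add, ← mul_add, ← Complex.ofReal_add,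
        ← Complex.ofReal_add]
      congr 3
      field_simp
      ring
    calc _ = ((2 ^ (1 / 4 : ℝ) * Real.sqrt s * Real.exp (-Real.pi * ζ ^ 2) : ℝ) : ℂ) *
          ψ (η + ζ / s) *
          (cexp (2 * Real.pi * I * ((x * (η + ζ / s) - τ * (η + ζ / s) ^ 2 : ℝ) : ℂ)) *
            cexp (2 * Real.pi * I * ((-((η + ζ / s - η) * y) : ℝ) : ℂ))) := by ring
      _ = _ := by
        rw [e2]
        push_cast
        ring
  have h2 : ∫ ξ : ℝ, ψ ξ * eq2 x τ ξ * pkh s y η ξ =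
      (s⁻¹ : ℝ) • ∫ ζ : ℝ, ψ (η + ζ / s) * eq2 x τ (η + ζ / s) * pkh s y η (η + ζ / s) := by
    have e1 := Measure.integral_comp_div (fun u : ℝ => ψ (η + u) * eq2 x τ (η + u) *
      pkh s y η (η + u)) s
    rw [e1, abs_of_pos hs, smul_smul, inv_mul_cancel₀ hs.ne', one_smul,
      integral_add_left_eq_self (fun u : ℝ => ψ u * eq2 x τ u * pkh s y η u) η]
  rw [h2]
  simp only [h1]
  rw [integral_const_mul, Complex.real_smul]
  unfold Kj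
  have h3 : ((s⁻¹ : ℝ) : ℂ) * ((2 ^ (1 / 4 : ℝ) * Real.sqrt s : ℝ) : ℂ) =
      ((2 ^ (1 / 4 : ℝ) * (Real.sqrt s)⁻¹ : ℝ) : ℂ) := by
    rw [← Complex.ofReal_mul]
    congr 1
    have h4 : Real.sqrt s * Real.sqrt s = s := Real.mul_self_sqrt hs.le
    have h5 : 0 < Real.sqrt s := Real.sqrt_pos.2 hs
    calc s⁻¹ * (2 ^ (1 / 4 : ℝ) * Real.sqrt s) =
        (Real.sqrt s * Real.sqrt s)⁻¹ * (2 ^ (1 / 4 : ℝ) * Real.sqrt s) := by rw [h4]
      _ = _ := by field_simp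
  rw [← h3]
  ring

/-- **The kernel of a wave packet.** -/
theorem packet_kernel (N : ℕ) {s₀ S : ℝ} (hs₀ : 0 < s₀) (hS : 0 ≤ S) {ψ : ℝ → ℂ}
    (hψ : ContDiff ℝ ∞ ψ) (hc : HasCompactSupport ψ) : ∃ C : ℝ, 0 ≤ C ∧
    ∀ s : ℝ, s₀ ≤ s → ∀ y η τ x : ℝ, |τ| ≤ S * s ^ 2 →
      ‖∫ ξ : ℝ, ψ ξ * eq2 x τ ξ * pkh s y η ξ‖ ≤
        C * (Real.sqrt s)⁻¹ * ((1 + |x - y - 2 * τ * η| / s) ^ N)⁻¹ := by
  obtain ⟨C, hC, k⟩ := Kj_decay' N hs₀ hS hψ hc 0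
  refine ⟨2 ^ (1 / 4 : ℝ) * C, by positivity, fun s hs y η τ x hτ => ?_⟩
  have hs' : 0 < s := hs₀.trans_le hs
  have hσ : |τ / s ^ 2| ≤ S := by
    rw [abs_div, abs_of_pos (by positivity : (0 : ℝ) < s ^ 2), div_le_iff₀ (by positivity)]
    exact hτ
  have h1 := k s hs η ((x - y - 2 * τ * η) / s) (τ / s ^ 2) hσ
  rw [abs_div, abs_of_pos hs'] at h1
  rw [packet_eq ψ hs', norm_mul, norm_mul, norm_eq2, mul_one, Complex.norm_real,
    Real.norm_of_nonneg (by positivity)]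
  calc _ ≤ 2 ^ (1 / 4 : ℝ) * (Real.sqrt s)⁻¹ *
        (C * ((1 + |x - y - 2 * τ * η| / s) ^ N)⁻¹) := by gcongr
    _ = _ := by ring

end

end Vale.Agent.P076.H972
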