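import Vale.Agent.P076.X.Spec

/-!
# P076, block X, STOP: the functionals along the pruning process
-/

open MeasureTheory Complex Set Filter Topology

namespace Vale.Agent.P076.H972

open Vale.Agent.P076.X

variable {B b C₀ C₁ : ℝ} {m N : ℕ} {g : ℝ → ℂ}

/-- index of the time interval of level `l` which contains `t` -/
noncomputable def kk (m l : ℕ) (t : ℝ) : ℕ := ⌊t / (sc m l) ^ 2⌋₊

/-- local energy of the input of level `l` -/
noncomputable def Xi (Pr : Proc B b C₀ C₁ m N g) (l : ℕ) (x t : ℝ) : ℝ :=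
  En B (sc m l) x t (Pr.gi l (kk m l t))

/-- pruning loss at level `l` -/
noncomputable def Pl (Pr : Proc B b C₀ C₁ m N g) (l : ℕ) (x t : ℝ) : ℝ :=
  En B (sc m l) x t (Pr.gi l (kk m l t)) - En B (sc m l) x t (Pr.go l (kk m l t))

/-- variation of the local energy of the input of level `l` between the scales `2 sc m l` and
`sc m l` -/
noncomputable def Dl (Pr : Proc B b C₀ C₁ m N g) (l : ℕ) (x t : ℝ) : ℝ :=
  (∫ a, ((kh B (sc m l) a - kh B (2 * sc m l) a : ℝ) : ℂ) *
    uh (Pr.gi l (kk m l t)) (Pr.gi l (kk m l t)) a t * ex (x * a)).re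

/-- the stopping functional -/
noncomputable def Zl (Pr : Proc B b C₀ C₁ m N g) (l : ℕ) (x t : ℝ) : ℝ :=
  Xi Pr 0 x t + ∑ j ∈ Finset.Icc 1 l, Dl Pr j x t

end Vale.Agent.P076.H972
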